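import Vale.Agent.Lib.P017.Data

/-! The classification of the square classes attached to a rational point. -/

namespace Vale.Agent.Lib.P017

/-- A prime dividing one squarefree factor of a square divides another factor. -/
lemma share {a b c w q : ℤ} (hq : Prime q) (hw : a * b * c = w ^ 2) (hs : Squarefree a)
    (h : q ∣ a) : q ∣ b ∨ q ∣ c := by
  obtain ⟨d, rfl⟩ := h
  have hd : ¬ q ∣ d := by
    rintro ⟨e, rfl⟩
    exact hq.not_isUnit (hs q ⟨e, by ring⟩)
  have hqw : q ∣ w := by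
    have : q ∣ w ^ 2 := by rw [← hw]; exact ⟨d * b * c, by ring⟩
    exact hq.dvd_of_dvd_pow this
  obtain ⟨v, rfl⟩ := hqw
  have h1 : d * b * c = q * v ^ 2 := by
    have : q * (d * b * c) = q * (q * v ^ 2) := by linear_combination hw
    exact mul_left_cancel₀ hq.ne_zero this
  have h2 : q ∣ d * (b * c) := ⟨v ^ 2, by rw [← h1]; ring⟩
  rcases hq.dvd_or_dvd h2 with h3 | h3
  · exact absurd h3 hd
  · exact hq.dvd_or_dvd h3

namespace Data

variable {p r t c1 c2 c3 u1 u2 u3 w : ℤ}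

/-- Common prime divisors. -/
lemma dvd12 (D : Data p r t c1 c2 c3 u1 u2 u3 w) {q : ℤ} (hq : Prime q) (h1 : q ∣ c1)
    (h2 : q ∣ c2) : q ∣ 9 * p := by
  have hr : q ∣ r := by rw [D.hA]; exact Dvd.dvd.mul_right h1 _
  have hB : q ∣ r + 9 * p * t ^ 2 := by rw [D.hB]; exact Dvd.dvd.mul_right h2 _
  have ht : ¬ q ∣ t := fun h' => hq.not_isUnit (D.hrt.isUnit_of_dvd' hr h')
  have h3 : q ∣ 9 * p * t ^ 2 := (dvd_add_right hr).mp hB
  rcases hq.dvd_or_dvd h3 with h4 | h4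
  · exact h4
  · exact absurd (hq.dvd_of_dvd_pow h4) ht

lemma dvd13 (D : Data p r t c1 c2 c3 u1 u2 u3 w) {q : ℤ} (hq : Prime q) (h1 : q ∣ c1)
    (h2 : q ∣ c3) : q ∣ 25 * p := by
  have hr : q ∣ r := by rw [D.hA]; exact Dvd.dvd.mul_right h1 _
  have hB : q ∣ r + 25 * p * t ^ 2 := by rw [D.hC]; exact Dvd.dvd.mul_right h2 _
  have ht : ¬ q ∣ t := fun h' => hq.not_isUnit (D.hrt.isUnit_of_dvd' hr h')
  have h3 : q ∣ 25 * p * t ^ 2 := (dvd_add_right hr).mp hB
  rcases hq.dvd_or_dvd h3 with h4 | h4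
  · exact h4
  · exact absurd (hq.dvd_of_dvd_pow h4) ht

lemma dvd23 (D : Data p r t c1 c2 c3 u1 u2 u3 w) {q : ℤ} (hq : Prime q) (h1 : q ∣ c2)
    (h2 : q ∣ c3) : q ∣ 16 * p := by
  have hB : q ∣ r + 9 * p * t ^ 2 := by rw [D.hB]; exact Dvd.dvd.mul_right h1 _
  have hC : q ∣ r + 25 * p * t ^ 2 := by rw [D.hC]; exact Dvd.dvd.mul_right h2 _
  have h3 : q ∣ 16 * p * t ^ 2 := by
    have := dvd_sub hC hB
    have e : r + 25 * p * t ^ 2 - (r + 9 * p * t ^ 2) = 16 * p * t ^ 2 := by ring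
    rwa [e] at this
  rcases hq.dvd_or_dvd h3 with h4 | h4
  · exact h4
  · have ht : q ∣ t := hq.dvd_of_dvd_pow h4
    exfalso
    have hr : q ∣ r := by
      have e : r = r + 9 * p * t ^ 2 - 9 * p * t ^ 2 := by ring
      rw [e]
      exact dvd_sub hB (Dvd.dvd.mul_left (dvd_pow ht two_ne_zero) _)
    exact hq.not_isUnit (D.hrt.isUnit_of_dvd' hr ht)

lemma share1 (D : Data p r t c1 c2 c3 u1 u2 u3 w) {q : ℤ} (hq : Prime q) (h : q ∣ c1) :
    q ∣ 9 * p ∨ q ∣ 25 * p := by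
  rcases share hq D.hw D.sq1 h with h' | h'
  · exact Or.inl (D.dvd12 hq h h')
  · exact Or.inr (D.dvd13 hq h h')

lemma share2 (D : Data p r t c1 c2 c3 u1 u2 u3 w) {q : ℤ} (hq : Prime q) (h : q ∣ c2) :
    q ∣ 9 * p ∨ q ∣ 16 * p := by
  have hw' : c2 * c1 * c3 = w ^ 2 := by rw [← D.hw]; ring
  rcases share hq hw' D.sq2 h with h' | h'
  · exact Or.inl (D.dvd12 hq h' h)
  · exact Or.inr (D.dvd23 hq h h')

lemma share3 (D : Data p r t c1 c2 c3 u1 u2 u3 w) {q : ℤ} (hq : Prime q) (h : q ∣ c3) :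
    q ∣ 25 * p ∨ q ∣ 16 * p := by
  have hw' : c3 * c1 * c2 = w ^ 2 := by rw [← D.hw]; ring
  rcases share hq hw' D.sq3 h with h' | h'
  · exact Or.inl (D.dvd13 hq h' h)
  · exact Or.inr (D.dvd23 hq h' h)

end Data

/-- Squarefree numbers with at most two prime divisors. -/
lemma sqfree_two_primes {a : ℕ} (ha : Squarefree a) {u v : ℕ}
    (h : ∀ q : ℕ, q.Prime → q ∣ a → q = u ∨ q = v) :
    a = 1 ∨ a = u ∨ a = v ∨ a = u * v := by
  by_cases hu : u ∣ a ∧ u.Prime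
  · obtain ⟨hu1, hu2⟩ := hu
    obtain ⟨b, rfl⟩ := hu1
    have hub : ¬ u ∣ b := by
      rintro ⟨c, rfl⟩
      exact hu2.one_lt.ne' (Nat.isUnit_iff.mp (ha u ⟨c, by ring⟩))
    have hb : Squarefree b := ha.of_mul_right
    have hbv : ∀ q : ℕ, q.Prime → q ∣ b → q = v := by
      intro q hq hqb
      rcases h q hq (Dvd.dvd.mul_left hqb u) with h' | h'
      · subst h'; exact absurd hqb hub
      · exact h'
    by_cases hvb : v ∣ b ∧ v.Prime
    · obtain ⟨hv1, hv2⟩ := hvb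
      obtain ⟨c, rfl⟩ := hv1
      have hvc : ¬ v ∣ c := by
        rintro ⟨d, rfl⟩
        exact hv2.one_lt.ne' (Nat.isUnit_iff.mp (hb v ⟨d, by ring⟩))
      have hc1 : c = 1 := by
        by_contra hne
        obtain ⟨q, hq, hqc⟩ := Nat.exists_prime_and_dvd hne
        have := hbv q hq (Dvd.dvd.mul_left hqc v)
        subst this
        exact hvc hqc
      subst hc1
      right; right; right; ring
    · have hb1 : b = 1 := by
        by_contra hne
        obtain ⟨q, hq, hqb⟩ := Nat.exists_prime_and_dvd hne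
        have := hbv q hq hqb
        subst this
        exact hvb ⟨hqb, hq⟩
      subst hb1
      right; left; ring
  · by_cases hv : v ∣ a ∧ v.Prime
    · obtain ⟨hv1, hv2⟩ := hv
      obtain ⟨b, rfl⟩ := hv1
      have hvb : ¬ v ∣ b := by
        rintro ⟨c, rfl⟩
        exact hv2.one_lt.ne' (Nat.isUnit_iff.mp (ha v ⟨c, by ring⟩))
      have hb1 : b = 1 := by
        by_contra hne
        obtain ⟨q, hq, hqb⟩ := Nat.exists_prime_and_dvd hne
        rcases h q hq (Dvd.dvd.mul_left hqb v) with h' | h'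
        · subst h'
          exact hu ⟨Dvd.dvd.mul_left hqb v, hq⟩
        · subst h'
          exact hvb hqb
      subst hb1
      right; right; left; ring
    · left
      by_contra hne
      obtain ⟨q, hq, hqa⟩ := Nat.exists_prime_and_dvd hne
      rcases h q hq hqa with h' | h'
      · subst h'; exact hu ⟨hqa, hq⟩
      · subst h'; exact hv ⟨hqa, hq⟩

/-- A prime is not a perfect square, nor is its cube. -/
lemma prime_not_sq {P : ℕ} (hP : P.Prime) (w : ℤ) : w ^ 2 ≠ P := by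
  intro h
  have hP' : Prime (P : ℤ) := Nat.prime_iff_prime_int.mp hP
  have h1 : (P : ℤ) ∣ w := hP'.dvd_of_dvd_pow (by rw [h])
  obtain ⟨v, rfl⟩ := h1
  have h2 : (P : ℤ) * (P * v ^ 2) = P * 1 := by linear_combination h
  have h3 := mul_left_cancel₀ hP'.ne_zero h2
  exact hP'.not_isUnit (IsUnit.of_mul_eq_one _ h3)

lemma prime_not_cube {P : ℕ} (hP : P.Prime) (w : ℤ) : w ^ 2 ≠ (P : ℤ) ^ 3 := by
  intro h
  have hP' : Prime (P : ℤ) := Nat.prime_iff_prime_int.mp hP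
  have h1 : (P : ℤ) ∣ w := hP'.dvd_of_dvd_pow (by rw [h]; exact dvd_pow_self _ three_ne_zero)
  obtain ⟨v, rfl⟩ := h1
  have h2 : ((P : ℤ) ^ 2) * v ^ 2 = (P : ℤ) ^ 2 * P := by linear_combination h
  exact prime_not_sq hP v (mul_left_cancel₀ (pow_ne_zero 2 hP'.ne_zero) h2)

end Vale.Agent.Lib.P017
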