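import Mathlib

/-! Elliptic curves in the shape y^2 = (x-e1)(x-e2)(x-e3): basic point arithmetic. -/

namespace Vale.Agent.Lib.P017

open WeierstrassCurve WeierstrassCurve.Affine

variable {F : Type*} [Field F]

/-- `W` has the shape `y^2 = (x-e1)(x-e2)(x-e3)`. -/
structure IsCubic (W : Affine F) (e1 e2 e3 : F) : Prop where
  a1 : W.a₁ = 0
  a3 : W.a₃ = 0
  a2 : W.a₂ = -(e1 + e2 + e3)
  a4 : W.a₄ = e1 * e2 + e1 * e3 + e2 * e3
  a6 : W.a₆ = -(e1 * e2 * e3)

section basic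

variable {W : Affine F} {e1 e2 e3 : F}

lemma IsCubic.equation_iff (h : IsCubic W e1 e2 e3) (x y : F) :
    W.Equation x y ↔ y ^ 2 = (x - e1) * (x - e2) * (x - e3) := by
  rw [Affine.equation_iff, h.a1, h.a2, h.a3, h.a4, h.a6]
  constructor <;> intro H <;> linear_combination H

lemma IsCubic.negY_eq (h : IsCubic W e1 e2 e3) (x y : F) : W.negY x y = -y := by
  rw [Affine.negY, h.a1, h.a3]; ring

lemma IsCubic.delta_ne (h : IsCubic W e1 e2 e3) (h2 : (2 : F) ≠ 0) (h12 : e1 ≠ e2) (h13 : e1 ≠ e3)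
    (h23 : e2 ≠ e3) : W.Δ ≠ 0 := by
  have : W.Δ = 16 * ((e1 - e2) * (e1 - e3) * (e2 - e3)) ^ 2 := by
    simp only [WeierstrassCurve.Δ, WeierstrassCurve.b₂, WeierstrassCurve.b₄,
      WeierstrassCurve.b₆, WeierstrassCurve.b₈, h.a1, h.a2, h.a3, h.a4, h.a6]
    ring
  rw [this]
  have h16 : (16 : F) = 2 ^ 4 := by norm_num
  rw [h16]
  have h12' := sub_ne_zero.mpr h12
  have h13' := sub_ne_zero.mpr h13
  have h23' := sub_ne_zero.mpr h23
  positivity

lemma IsCubic.nonsingular (h : IsCubic W e1 e2 e3) (h2 : (2 : F) ≠ 0) (h12 : e1 ≠ e2)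
    (h13 : e1 ≠ e3) (h23 : e2 ≠ e3) {x y : F} (hy : y ^ 2 = (x - e1) * (x - e2) * (x - e3)) :
    W.Nonsingular x y :=
  (equation_iff_nonsingular_of_Δ_ne_zero (h.delta_ne h2 h12 h13 h23)).mp
    ((h.equation_iff x y).mpr hy)

end basic

section group

variable [DecidableEq F] {W : Affine F} {e1 e2 e3 : F}

/-- Halving: if `x - e_i` are all squares, the point is twice a point. -/
lemma IsCubic.exists_half (h : IsCubic W e1 e2 e3) (h2 : (2 : F) ≠ 0) (h12 : e1 ≠ e2)
    (h13 : e1 ≠ e3) (h23 : e2 ≠ e3) {x y : F} (hP : W.Nonsingular x y)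
    (h1 : IsSquare (x - e1)) (h2' : IsSquare (x - e2)) (h3 : IsSquare (x - e3)) :
    ∃ Q : W.Point, Point.some x y hP = Q + Q := by
  obtain ⟨r1, hr1⟩ := h1
  obtain ⟨r2, hr2⟩ := h2'
  obtain ⟨r3, hr3⟩ := h3
  have hE := (h.equation_iff x y).mp hP.1
  -- choose the sign of r1 so that y = r1 r2 r3
  have key : ∃ s1 : F, x - e1 = s1 * s1 ∧ y = s1 * r2 * r3 := by
    have : (y - r1 * r2 * r3) * (y + r1 * r2 * r3) = 0 := by
      have : y ^ 2 = (r1 * r1) * (r2 * r2) * (r3 * r3) := by rw [hE, hr1, hr2, hr3]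
      linear_combination this
    rcases mul_eq_zero.mp this with h' | h'
    · exact ⟨r1, hr1, by linear_combination h'⟩
    · exact ⟨-r1, by rw [hr1]; ring, by linear_combination h'⟩
  obtain ⟨s1, hs1, hys⟩ := key
  have ne12 : s1 + r2 ≠ 0 := by
    intro h0
    apply h12
    have : e2 - e1 = (s1 - r2) * (s1 + r2) := by linear_combination hs1 - hr2
    rw [h0, mul_zero, sub_eq_zero] at this
    exact this.symm
  have ne13 : s1 + r3 ≠ 0 := by
    intro h0
    apply h13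
    have : e3 - e1 = (s1 - r3) * (s1 + r3) := by linear_combination hs1 - hr3
    rw [h0, mul_zero, sub_eq_zero] at this
    exact this.symm
  have ne23 : r2 + r3 ≠ 0 := by
    intro h0
    apply h23
    have : e3 - e2 = (r2 - r3) * (r2 + r3) := by linear_combination hr2 - hr3
    rw [h0, mul_zero, sub_eq_zero] at this
    exact this.symm
  set X : F := x + s1 * r2 + s1 * r3 + r2 * r3 with hX
  set Y : F := (s1 + r2) * (s1 + r3) * (r2 + r3) with hY
  have hY0 : Y ≠ 0 := mul_ne_zero (mul_ne_zero ne12 ne13) ne23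
  have hQeq : Y ^ 2 = (X - e1) * (X - e2) * (X - e3) := by
    have a1 : X - e1 = (s1 + r2) * (s1 + r3) := by rw [hX]; linear_combination hs1
    have a2 : X - e2 = (s1 + r2) * (r2 + r3) := by rw [hX]; linear_combination hr2
    have a3 : X - e3 = (s1 + r3) * (r2 + r3) := by rw [hX]; linear_combination hr3
    rw [a1, a2, a3, hY]; ring
  have hQ : W.Nonsingular X Y := h.nonsingular h2 h12 h13 h23 hQeq
  refine ⟨Point.some X Y hQ, ?_⟩
  have hne : Y ≠ W.negY X Y := by
    rw [h.negY_eq]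
    intro h0
    apply hY0
    have : (2 : F) * Y = 0 := by linear_combination h0
    exact (mul_eq_zero.mp this).resolve_left h2
  rw [Point.add_self_of_Y_ne hne]
  have hsl : W.slope X X Y Y = s1 + r2 + r3 := by
    rw [slope_of_Y_ne rfl hne, h.negY_eq, h.a1, h.a2, h.a4]
    have h2Y : Y - -Y ≠ 0 := by
      have : Y - -Y = 2 * Y := by ring
      rw [this]; exact mul_ne_zero h2 hY0
    rw [div_eq_iff h2Y]
    have a1 : X - e1 = (s1 + r2) * (s1 + r3) := by rw [hX]; linear_combination hs1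
    have a2 : X - e2 = (s1 + r2) * (r2 + r3) := by rw [hX]; linear_combination hr2
    have a3 : X - e3 = (s1 + r3) * (r2 + r3) := by rw [hX]; linear_combination hr3
    have : 3 * X ^ 2 + 2 * -(e1 + e2 + e3) * X + (e1 * e2 + e1 * e3 + e2 * e3) - 0 * Y
        = (X - e1) * (X - e2) + (X - e1) * (X - e3) + (X - e2) * (X - e3) := by ring
    rw [this, a1, a2, a3, hY]
    ring
  have hx' : W.addX X X (W.slope X X Y Y) = x := by
    rw [hsl, addX, h.a1, h.a2, hX]
    linear_combination (-1 : F) * hs1 - hr2 - hr3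
  have hy' : W.addY X X Y (W.slope X X Y Y) = y := by
    rw [addY, h.negY_eq, negAddY, hx', hsl, hys, hX, hY]
    ring
  simp only [Point.some.injEq]
  exact ⟨hx'.symm, hy'.symm⟩

omit [DecidableEq F] in
/-- Permuting the roots. -/
lemma IsCubic.perm12 (h : IsCubic W e1 e2 e3) : IsCubic W e2 e1 e3 :=
  ⟨h.a1, h.a3, by rw [h.a2]; ring, by rw [h.a4]; ring, by rw [h.a6]; ring⟩

omit [DecidableEq F] in
lemma IsCubic.perm13 (h : IsCubic W e1 e2 e3) : IsCubic W e3 e2 e1 :=
  ⟨h.a1, h.a3, by rw [h.a2]; ring, by rw [h.a4]; ring, by rw [h.a6]; ring⟩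

omit [DecidableEq F] in
lemma IsCubic.perm23 (h : IsCubic W e1 e2 e3) : IsCubic W e1 e3 e2 :=
  ⟨h.a1, h.a3, by rw [h.a2]; ring, by rw [h.a4]; ring, by rw [h.a6]; ring⟩

/-- Translation by the two-torsion point with first root. -/
lemma IsCubic.add_root (h : IsCubic W e1 e2 e3) {x y : F} (hP : W.Nonsingular x y)
    (hT : W.Nonsingular e1 0) (hx : x ≠ e1) :
    ∃ (x' y' : F) (hP' : W.Nonsingular x' y'),
      Point.some x y hP + Point.some e1 0 hT = Point.some x' y' hP' ∧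
      x' - e1 = (e1 - e2) * (e1 - e3) / (x - e1) ∧
      x' - e2 = (e1 - e2) * (x - e3) / (x - e1) ∧
      x' - e3 = (e1 - e3) * (x - e2) / (x - e1) := by
  have hE := (h.equation_iff x y).mp hP.1
  have hd : x - e1 ≠ 0 := sub_ne_zero.mpr hx
  refine ⟨_, _, _, Point.add_of_X_ne hx, ?_, ?_, ?_⟩
  all_goals
    rw [slope_of_X_ne hx, addX, h.a1, h.a2]
    have : ((y - 0) / (x - e1)) ^ 2 = (x - e2) * (x - e3) / (x - e1) := by
      rw [div_pow, sub_zero, hE]; field_simp
    rw [this]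
    field_simp
    ring

/-- The product of the `x - e` values at three collinear points is a square. -/
lemma IsCubic.add_generic (h : IsCubic W e1 e2 e3) {x1 y1 x2 y2 : F} (hP1 : W.Nonsingular x1 y1)
    (hP2 : W.Nonsingular x2 y2) (hx : x1 ≠ x2) :
    ∃ (x3 y3 : F) (hP3 : W.Nonsingular x3 y3),
      Point.some x1 y1 hP1 + Point.some x2 y2 hP2 = Point.some x3 y3 hP3 ∧
      IsSquare ((x3 - e1) * (x1 - e1) * (x2 - e1)) ∧
      IsSquare ((x3 - e2) * (x1 - e2) * (x2 - e2)) ∧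
      IsSquare ((x3 - e3) * (x1 - e3) * (x2 - e3)) := by
  have hE1 := (h.equation_iff x1 y1).mp hP1.1
  have hE2 := (h.equation_iff x2 y2).mp hP2.1
  have hd : x1 - x2 ≠ 0 := sub_ne_zero.mpr hx
  refine ⟨_, _, _, Point.add_of_X_ne hx, ?_, ?_, ?_⟩
  all_goals
    rw [slope_of_X_ne hx, addX, h.a1, h.a2]
  · refine ⟨(y2 * (x1 - e1) - y1 * (x2 - e1)) / (x1 - x2), ?_⟩
    field_simp
    linear_combination (x1 - x2) * (x2 - e1) * hE1 - (x1 - x2) * (x1 - e1) * hE2
  · refine ⟨(y2 * (x1 - e2) - y1 * (x2 - e2)) / (x1 - x2), ?_⟩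
    field_simp
    linear_combination (x1 - x2) * (x2 - e2) * hE1 - (x1 - x2) * (x1 - e2) * hE2
  · refine ⟨(y2 * (x1 - e3) - y1 * (x2 - e3)) / (x1 - x2), ?_⟩
    field_simp
    linear_combination (x1 - x2) * (x2 - e3) * hE1 - (x1 - x2) * (x1 - e3) * hE2

/-- Doubling formula in the model `y^2 = x (x - a) (x - b)`. -/
lemma IsCubic.double_x {a b : F} (h : IsCubic W 0 a b) (h2 : (2 : F) ≠ 0) {x y : F}
    (hP : W.Nonsingular x y) (hy : y ≠ 0) :
    ∃ (x' y' : F) (hP' : W.Nonsingular x' y'),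
      Point.some x y hP + Point.some x y hP = Point.some x' y' hP' ∧
      x' = (x ^ 2 - a * b) ^ 2 / (4 * (x * (x - a) * (x - b))) := by
  have hE := (h.equation_iff x y).mp hP.1
  have hne : y ≠ W.negY x y := by
    rw [h.negY_eq]
    intro h0
    apply hy
    have : (2 : F) * y = 0 := by linear_combination h0
    exact (mul_eq_zero.mp this).resolve_left h2
  refine ⟨_, _, _, Point.add_self_of_Y_ne hne, ?_⟩
  have hne2 : y - -y ≠ 0 := by
    have : y - -y = 2 * y := by ring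
    rw [this]; exact mul_ne_zero h2 hy
  have hf : x * (x - a) * (x - b) ≠ 0 := by
    intro h0
    apply hy
    have : y ^ 2 = 0 := by rw [hE, sub_zero, h0]
    exact pow_eq_zero_iff (two_ne_zero) |>.mp this
  have h4 : (4 : F) ≠ 0 := by
    have : (4 : F) = 2 * 2 := by norm_num
    rw [this]; exact mul_ne_zero h2 h2
  rw [slope_of_Y_ne rfl hne, h.negY_eq, addX, h.a1, h.a2, h.a4]
  have hy2 : y ^ 2 = x * (x - a) * (x - b) := by rw [hE, sub_zero]
  have hy' : 2 * y ≠ 0 := mul_ne_zero h2 hy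
  have e : y - -y = 2 * y := by ring
  rw [e]
  have hx' : ((3 * x ^ 2 + 2 * -(0 + a + b) * x + (0 * a + 0 * b + a * b) - 0 * y) / (2 * y)) ^ 2
      = (3 * x ^ 2 - 2 * (a + b) * x + a * b) ^ 2 / (4 * (x * (x - a) * (x - b))) := by
    rw [← hy2, div_pow]
    congr 1
    · ring
    · ring
  rw [hx', zero_mul]
  have hx0 : x ≠ 0 := fun h0 => hf (by rw [h0]; ring)
  have hxa : x - a ≠ 0 := fun h0 => hf (by rw [h0]; ring)
  have hxb : x - b ≠ 0 := fun h0 => hf (by rw [h0]; ring)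
  field_simp
  ring

end group

end Vale.Agent.Lib.P017
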