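import Mathlib

/-! The local condition at the prime two for the two-descent. -/

namespace Vale.Agent.Lib.P017

lemma zmod8_odd_sq {z : ℤ} (hz : Odd z) : (z : ZMod 8) ^ 2 = 1 := by
  obtain ⟨k, rfl⟩ := hz
  push_cast
  generalize (k : ZMod 8) = a
  revert a
  decide

lemma zmod8_even_sq {z : ℤ} (hz : Even z) : (z : ZMod 8) ^ 2 = 0 ∨ (z : ZMod 8) ^ 2 = 4 := by
  obtain ⟨k, rfl⟩ := hz
  push_cast
  generalize (k : ZMod 8) = a
  revert a
  decide

lemma odd_of_odd_mul_sq {c u z : ℤ} (h : z = c * u ^ 2) (hz : Odd z) : Odd c ∧ Odd u := by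
  rw [h, Int.odd_mul] at hz
  refine ⟨hz.1, ?_⟩
  exact (Int.odd_pow' two_ne_zero).mp hz.2

lemma parity_same {b c x y z : ℤ} (hb : Odd b) (hc : Odd c) (h : c * x ^ 2 - b * y ^ 2 = 2 * z) :
    (Even x ↔ Even y) := by
  have h1 : Even (c * x ^ 2 - b * y ^ 2) := by rw [h]; exact even_two_mul z
  rw [Int.even_sub] at h1
  have hc' : ¬ Even c := Int.not_even_iff_odd.mpr hc
  have hb' : ¬ Even b := Int.not_even_iff_odd.mpr hb
  simpa [Int.even_mul, hc', hb', Int.even_pow] using h1

lemma check_odd : ∀ k : ZMod 8, 2 * k + 1 = 1 ∨ 2 * k + 1 = 3 ∨ 2 * k + 1 = 5 ∨ 2 * k + 1 = 7 := by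
  decide

lemma check0 : ∀ a P τ : ZMod 8, (a = 1 ∨ a = 3 ∨ a = 5 ∨ a = 7) →
    (P = 1 ∨ P = 3 ∨ P = 5 ∨ P = 7) → (τ = 0 ∨ τ = 4) →
    a * (a + 9 * P * τ) * (a + 25 * P * τ) = 1 → a = 1 := by
  decide +kernel

lemma check3 : ∀ a P : ZMod 8, a + P = 0 → (P = 1 ∨ P = 3 ∨ P = 5 ∨ P = 7) →
    (P = 3 ∨ P = 7 → a = 1 ∨ a = 5) ∧ (P = 5 → a = 1 ∨ a = 3) := by
  decide +kernel

lemma check4 : ∀ a b P : ZMod 8, a * b * (b + 4 * P) = 1 → (b = 1 ∨ b = 3 ∨ b = 5 ∨ b = 7) →
    a + P = 4 * b → (P = 1 ∨ P = 3 ∨ P = 5 ∨ P = 7) →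
    (P = 3 ∨ P = 7 → a = 1 ∨ a = 5) ∧ (P = 5 → a = 1 ∨ a = 3) := by
  decide +kernel

/-- A finite check for the sub-case of odd `t`, odd `r`, and `c2` even, first part. -/
lemma check1 : ∀ a b c P : ZMod 8, a * b * c = 1 → c = b → a + P = 2 * b → P ≠ 1 →
    (P = 1 ∨ P = 3 ∨ P = 5 ∨ P = 7) → (P = 5 → c = 1 ∨ c = 5) →
    (a = 1 ∨ a = 3 ∨ a = 5 ∨ a = 7) → False := by
  decide +kernel

/-- A finite check for the sub-case of odd `t`, odd `r`, and `c2` even, second part. -/
lemma check2 : ∀ a b c P : ZMod 8, a * b * c = 1 → c = b + 2 * P → a + P = 0 → P ≠ 1 →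
    (P = 1 ∨ P = 3 ∨ P = 5 ∨ P = 7) → (P = 5 → c = 1 ∨ c = 5) → False := by
  decide +kernel

/-- The 2-adic lemma. -/
lemma two_adic {p r t c1 c2 c3 u1 u2 u3 w : ℤ}
    (hA : r = c1 * u1 ^ 2) (hB : r + 9 * p * t ^ 2 = c2 * u2 ^ 2)
    (hC : r + 25 * p * t ^ 2 = c3 * u3 ^ 2) (hrt : IsCoprime r t)
    (hw : c1 * c2 * c3 = w ^ 2) (hp : Odd p) (hc1 : Odd c1)
    (hsq2 : Squarefree c2) (hsq3 : Squarefree c3) (h23 : (2 : ℤ) ∣ c2 ↔ (2 : ℤ) ∣ c3)
    (hc3 : ∀ c' : ℤ, c3 = 2 * c' → (p : ZMod 8) = 5 → (c' : ZMod 8) = 1 ∨ (c' : ZMod 8) = 5)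
    (hp8 : (p : ZMod 8) ≠ 1) :
    ¬ (2 : ℤ) ∣ c2 ∧ ((p : ZMod 8) = 3 ∨ (p : ZMod 8) = 7 → (c1 : ZMod 8) = 1 ∨ (c1 : ZMod 8) = 5) ∧
      ((p : ZMod 8) = 5 → (c1 : ZMod 8) = 1 ∨ (c1 : ZMod 8) = 3) := by
  have hPodd : ∃ k : ZMod 8, (p : ZMod 8) = 2 * k + 1 := by
    obtain ⟨k, rfl⟩ := hp
    exact ⟨k, by push_cast; ring⟩
  have hPcases : (p : ZMod 8) = 1 ∨ (p : ZMod 8) = 3 ∨ (p : ZMod 8) = 5 ∨ (p : ZMod 8) = 7 := by
    obtain ⟨k, hk⟩ := hPodd
    rw [hk]
    exact check_odd k
  have hodd_cases : ∀ z : ℤ, Odd z → (z : ZMod 8) = 1 ∨ (z : ZMod 8) = 3 ∨ (z : ZMod 8) = 5 ∨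
      (z : ZMod 8) = 7 := by
    intro z hz
    obtain ⟨k, rfl⟩ := hz
    push_cast
    generalize (k : ZMod 8) = a
    revert a
    decide
  have hc1' := hodd_cases c1 hc1
  generalize hP : (p : ZMod 8) = P at *
  generalize ha : (c1 : ZMod 8) = a at *
  -- casts of the equations
  have hA8 : (r : ZMod 8) = a * (u1 : ZMod 8) ^ 2 := by rw [hA, ← ha]; push_cast; ring
  have hB8 : (r : ZMod 8) + 9 * P * (t : ZMod 8) ^ 2 = (c2 : ZMod 8) * (u2 : ZMod 8) ^ 2 := by
    have := congrArg (fun z : ℤ => (z : ZMod 8)) hB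
    simpa [hP] using this
  have hC8 : (r : ZMod 8) + 25 * P * (t : ZMod 8) ^ 2 = (c3 : ZMod 8) * (u3 : ZMod 8) ^ 2 := by
    have := congrArg (fun z : ℤ => (z : ZMod 8)) hC
    simpa [hP] using this
  have hw8 : a * (c2 : ZMod 8) * (c3 : ZMod 8) = (w : ZMod 8) ^ 2 := by
    have := congrArg (fun z : ℤ => (z : ZMod 8)) hw
    simpa [ha] using this
  rcases Int.even_or_odd t with ht | ht
  · -- t even, r odd
    have hr : Odd r := by
      rcases Int.even_or_odd r with hr | hr
      · exfalso
        have h2 : (2 : ℤ) ∣ r := hr.two_dvd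
        have h2' : (2 : ℤ) ∣ t := ht.two_dvd
        exact Int.prime_two.not_isUnit (hrt.isUnit_of_dvd' h2 h2')
      · exact hr
    have ht2 : Even (p * t ^ 2) := Even.mul_left (Even.pow_of_ne_zero ht two_ne_zero) p
    have hBodd : Odd (r + 9 * p * t ^ 2) := by
      have : r + 9 * p * t ^ 2 = r + 2 * (4 * (p * t ^ 2)) + p * t ^ 2 := by ring
      rw [this]
      exact Odd.add_even (hr.add_even (even_two_mul _)) ht2
    have hCodd : Odd (r + 25 * p * t ^ 2) := by
      have : r + 25 * p * t ^ 2 = r + 2 * (12 * (p * t ^ 2)) + p * t ^ 2 := by ring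
      rw [this]
      exact Odd.add_even (hr.add_even (even_two_mul _)) ht2
    obtain ⟨hc2, hu2⟩ := odd_of_odd_mul_sq hB hBodd
    obtain ⟨hc3', hu3⟩ := odd_of_odd_mul_sq hC hCodd
    obtain ⟨-, hu1⟩ := odd_of_odd_mul_sq hA hr
    have hwodd : Odd w := by
      have : Odd (w ^ 2) := by rw [← hw]; exact (hc1.mul hc2).mul hc3'
      exact (Int.odd_pow' two_ne_zero).mp this
    have h1 := zmod8_odd_sq hu1
    have h2 := zmod8_odd_sq hu2
    have h3 := zmod8_odd_sq hu3
    have h4 := zmod8_odd_sq hwodd
    have h5 := zmod8_even_sq ht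
    rw [h1, mul_one] at hA8
    rw [h2, mul_one] at hB8
    rw [h3, mul_one] at hC8
    rw [h4] at hw8
    have key : a = 1 := by
      rw [← hB8, ← hC8, hA8] at hw8
      exact check0 a P _ hc1' hPcases h5 hw8
    refine ⟨?_, ?_, ?_⟩
    · intro h2c
      exact Int.not_even_iff_odd.mpr hc2 (even_iff_two_dvd.mpr h2c)
    · intro _; left; exact key
    · intro _; left; exact key
  · rcases Int.even_or_odd r with hr | hr
    · -- t odd, r even
      have hpt : Odd (p * t ^ 2) := hp.mul (ht.pow)
      have hBodd : Odd (r + 9 * p * t ^ 2) := by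
        have : r + 9 * p * t ^ 2 = (r + 2 * (4 * (p * t ^ 2))) + p * t ^ 2 := by ring
        rw [this]
        exact Even.add_odd (hr.add (even_two_mul _)) hpt
      have hCodd : Odd (r + 25 * p * t ^ 2) := by
        have : r + 25 * p * t ^ 2 = (r + 2 * (12 * (p * t ^ 2))) + p * t ^ 2 := by ring
        rw [this]
        exact Even.add_odd (hr.add (even_two_mul _)) hpt
      obtain ⟨hc2, hu2⟩ := odd_of_odd_mul_sq hB hBodd
      obtain ⟨hc3', hu3⟩ := odd_of_odd_mul_sq hC hCodd
      have hwodd : Odd w := by
        have : Odd (w ^ 2) := by rw [← hw]; exact (hc1.mul hc2).mul hc3'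
        exact (Int.odd_pow' two_ne_zero).mp this
      have h2 := zmod8_odd_sq hu2
      have h3 := zmod8_odd_sq hu3
      have h4 := zmod8_odd_sq hwodd
      have h5 := zmod8_odd_sq ht
      rw [h2, mul_one, h5] at hB8
      rw [h3, mul_one, h5] at hC8
      rw [h4] at hw8
      have hc2c : (c2 : ZMod 8) ^ 2 = 1 := zmod8_odd_sq hc2
      have hc23 : (c3 : ZMod 8) = (c2 : ZMod 8) := by
        rw [← hB8, ← hC8]
        have : (16 : ZMod 8) = 0 := by decide
        linear_combination (P) * this
      have key : a = 1 := by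
        rw [hc23] at hw8
        have : a * (c2 : ZMod 8) * (c2 : ZMod 8) = a * (c2 : ZMod 8) ^ 2 := by ring
        rw [this, hc2c, mul_one] at hw8
        exact hw8
      refine ⟨?_, ?_, ?_⟩
      · intro h2c
        exact Int.not_even_iff_odd.mpr hc2 (even_iff_two_dvd.mpr h2c)
      · intro _; left; exact key
      · intro _; left; exact key
    · -- t odd, r odd
      obtain ⟨-, hu1⟩ := odd_of_odd_mul_sq hA hr
      have h1 := zmod8_odd_sq hu1
      have h5 := zmod8_odd_sq ht
      rw [h1, mul_one] at hA8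
      rw [h5, mul_one] at hB8 hC8
      have h9 : (9 : ZMod 8) = 1 := by decide
      have h25 : (25 : ZMod 8) = 1 := by decide
      rw [h9, one_mul, hA8] at hB8
      rw [h25, one_mul, hA8] at hC8
      have hpt : Odd (p * t ^ 2) := hp.mul (ht.pow)
      have hdiff : c3 * u3 ^ 2 - c2 * u2 ^ 2 = 16 * (p * t ^ 2) := by
        rw [← hB, ← hC]; ring
      by_cases h2c : (2 : ℤ) ∣ c2
      · -- the case where c2 is even: contradiction
        exfalso
        have h2c3 := h23.mp h2c
        obtain ⟨b, rfl⟩ := h2c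
        obtain ⟨c, rfl⟩ := h2c3
        have hb : Odd b := by
          rcases Int.even_or_odd b with hb | hb
          · exfalso
            obtain ⟨d, rfl⟩ := hb
            exact Int.prime_two.not_isUnit (hsq2 2 ⟨d, by ring⟩)
          · exact hb
        have hc : Odd c := by
          rcases Int.even_or_odd c with hc | hc
          · exfalso
            obtain ⟨d, rfl⟩ := hc
            exact Int.prime_two.not_isUnit (hsq3 2 ⟨d, by ring⟩)
          · exact hc
        have hc3'' := hc3 c rfl
        -- the reduced relation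
        have hrel : c * u3 ^ 2 - b * u2 ^ 2 = 2 * (4 * (p * t ^ 2)) := by
          linarith
        -- w is even
        have hw2 : (2 : ℤ) ∣ w := by
          have : (2 : ℤ) ∣ w ^ 2 := by rw [← hw]; exact ⟨c1 * b * (2 * c), by ring⟩
          exact Int.prime_two.dvd_of_dvd_pow this
        obtain ⟨w', rfl⟩ := hw2
        have hw' : c1 * b * c = w' ^ 2 := by
          have : (4 : ℤ) * (c1 * b * c) = 4 * w' ^ 2 := by linear_combination hw
          exact mul_left_cancel₀ (by norm_num) this
        have hw'odd : Odd w' := by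
          have : Odd (w' ^ 2) := by rw [← hw']; exact (hc1.mul hb).mul hc
          exact (Int.odd_pow' two_ne_zero).mp this
        have hw8' : a * (b : ZMod 8) * (c : ZMod 8) = 1 := by
          have h := congrArg (fun z : ℤ => (z : ZMod 8)) hw'
          simp only [Int.cast_mul, Int.cast_pow, ha] at h
          rw [h, zmod8_odd_sq hw'odd]
        have hsame := parity_same hb hc hrel
        rcases Int.even_or_odd u2 with hu2 | hu2
        · -- both even
          obtain ⟨a', ha'⟩ := hu2
          obtain ⟨b', hb'⟩ := hsame.mpr ⟨a', ha'⟩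
          subst ha'
          subst hb'
          have hrel2 : c * b' ^ 2 - b * a' ^ 2 = 2 * (p * t ^ 2) := by
            have : (4 : ℤ) * (c * b' ^ 2 - b * a' ^ 2) = 4 * (2 * (p * t ^ 2)) := by
              linear_combination hrel
            exact mul_left_cancel₀ (by norm_num) this
          have hsame2 := parity_same hb hc (z := p * t ^ 2) hrel2
          rcases Int.even_or_odd a' with ha'' | ha''
          · -- impossible by valuation
            obtain ⟨a2, rfl⟩ := ha''
            obtain ⟨b2, rfl⟩ := hsame2.mpr ⟨a2, rfl⟩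
            have : p * t ^ 2 = 2 * (c * b2 ^ 2 - b * a2 ^ 2) := by
              have : (2 : ℤ) * (p * t ^ 2) = 2 * (2 * (c * b2 ^ 2 - b * a2 ^ 2)) := by
                linear_combination -hrel2
              exact mul_left_cancel₀ (by norm_num) this
            exact Int.not_even_iff_odd.mpr hpt (by rw [this]; exact even_two_mul _)
          · have hb'' : Odd b' := by
              rcases Int.even_or_odd b' with h' | h'
              · exact absurd (hsame2.mp h') (Int.not_even_iff_odd.mpr ha'')
              · exact h'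
            have ha8 := zmod8_odd_sq ha''
            have hb8 := zmod8_odd_sq hb''
            have hcb : (c : ZMod 8) = (b : ZMod 8) + 2 * P := by
              have h := congrArg (fun z : ℤ => (z : ZMod 8)) hrel2
              simp only [Int.cast_mul, Int.cast_pow, Int.cast_sub, Int.cast_ofNat, hP, ha8, hb8,
                h5, mul_one] at h
              linear_combination h
            have h0 : a + P = 0 := by
              have h := hB8
              push_cast at h
              rw [h]
              have : (8 : ZMod 8) = 0 := by decide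
              linear_combination ((b : ZMod 8) * (a' : ZMod 8) ^ 2) * this
            exact check2 a b c P hw8' hcb h0 hp8 hPcases hc3''
        · have hu3 : Odd u3 := by
            rcases Int.even_or_odd u3 with h' | h'
            · exact absurd (hsame.mp h') (Int.not_even_iff_odd.mpr hu2)
            · exact h'
          have hu28 := zmod8_odd_sq hu2
          have hu38 := zmod8_odd_sq hu3
          have hcb : (c : ZMod 8) = (b : ZMod 8) := by
            have h := congrArg (fun z : ℤ => (z : ZMod 8)) hrel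
            simp only [Int.cast_mul, Int.cast_pow, Int.cast_sub, Int.cast_ofNat, hP, hu28, hu38,
              h5, mul_one] at h
            have : (8 : ZMod 8) = 0 := by decide
            linear_combination h + P * this
          have h0 : a + P = 2 * (b : ZMod 8) := by
            have h := hB8
            push_cast at h
            rw [h, hu28, mul_one]
          exact check1 a b c P hw8' hcb h0 hp8 hPcases hc3'' hc1'
      · -- c2 odd
        have hc2 : Odd c2 := by
          rcases Int.even_or_odd c2 with h' | h'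
          · exact absurd h'.two_dvd h2c
          · exact h'
        have hc3' : Odd c3 := by
          rcases Int.even_or_odd c3 with h' | h'
          · exact absurd (h23.mpr h'.two_dvd) h2c
          · exact h'
        refine ⟨h2c, ?_⟩
        have hBeven : Even (c2 * u2 ^ 2) := by
          rw [← hB]
          have : r + 9 * p * t ^ 2 = (r + p * t ^ 2) + 2 * (4 * (p * t ^ 2)) := by ring
          rw [this]
          exact (hr.add_odd hpt).add (even_two_mul _)
        have hCeven : Even (c3 * u3 ^ 2) := by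
          rw [← hC]
          have : r + 25 * p * t ^ 2 = (r + p * t ^ 2) + 2 * (12 * (p * t ^ 2)) := by ring
          rw [this]
          exact (hr.add_odd hpt).add (even_two_mul _)
        have hu2e : Even u2 := by
          rw [Int.even_mul] at hBeven
          rcases hBeven with h' | h'
          · exact absurd h' (Int.not_even_iff_odd.mpr hc2)
          · exact (Int.even_pow' two_ne_zero).mp h'
        have hu3e : Even u3 := by
          rw [Int.even_mul] at hCeven
          rcases hCeven with h' | h'
          · exact absurd h' (Int.not_even_iff_odd.mpr hc3')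
          · exact (Int.even_pow' two_ne_zero).mp h'
        have hwodd : Odd w := by
          have : Odd (w ^ 2) := by rw [← hw]; exact (hc1.mul hc2).mul hc3'
          exact (Int.odd_pow' two_ne_zero).mp this
        have hw8' : a * (c2 : ZMod 8) * (c3 : ZMod 8) = 1 := by
          rw [hw8, zmod8_odd_sq hwodd]
        obtain ⟨a', rfl⟩ := hu2e
        obtain ⟨b', rfl⟩ := hu3e
        have hrel : c3 * b' ^ 2 - c2 * a' ^ 2 = 2 * (2 * (p * t ^ 2)) := by
          have : (4 : ℤ) * (c3 * b' ^ 2 - c2 * a' ^ 2) = 4 * (2 * (2 * (p * t ^ 2))) := by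
            linear_combination hdiff
          exact mul_left_cancel₀ (by norm_num) this
        have hsame := parity_same hc2 hc3' hrel
        have hc28 := zmod8_odd_sq hc2
        have hc2cases := hodd_cases c2 hc2
        have hc3cases := hodd_cases c3 hc3'
        rcases Int.even_or_odd a' with ha'' | ha''
        · -- a' even: then B is divisible by 8 and a = -P
          obtain ⟨a2, rfl⟩ := ha''
          have h0 : a + P = 0 := by
            have h := hB8
            push_cast at h
            rw [h]
            have : (8 : ZMod 8) = 0 := by decide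
            linear_combination (2 * (c2 : ZMod 8) * (a2 : ZMod 8) ^ 2) * this
          exact check3 a P h0 hPcases
        · have hb'' : Odd b' := by
            rcases Int.even_or_odd b' with h' | h'
            · exact absurd (hsame.mp h') (Int.not_even_iff_odd.mpr ha'')
            · exact h'
          have ha8 := zmod8_odd_sq ha''
          have hb8 := zmod8_odd_sq hb''
          have h6 : (c3 : ZMod 8) = (c2 : ZMod 8) + 4 * P := by
            have h := congrArg (fun z : ℤ => (z : ZMod 8)) hrel
            simp only [Int.cast_mul, Int.cast_pow, Int.cast_sub, Int.cast_ofNat, hP, ha8, hb8,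
              h5, mul_one] at h
            linear_combination h
          have h7 : a + P = 4 * (c2 : ZMod 8) := by
            have h := hB8
            push_cast at h
            rw [h]
            have : (2 : ZMod 8) * (a' : ZMod 8) * (2 * (a' : ZMod 8)) = 4 * (a' : ZMod 8) ^ 2 := by
              ring
            linear_combination (4 * (c2 : ZMod 8)) * ha8
          rw [h6] at hw8'
          exact check4 a _ P hw8' hc2cases h7 hPcases

end Vale.Agent.Lib.P017
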