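import Vale.Agent.Lib.P017.Local
import Vale.Agent.Lib.P017.Two

/-! From a rational point on a twist to integer data. -/

namespace Vale.Agent.Lib.P017

/-- Integer data attached to a rational point. -/
structure Data (p r t c1 c2 c3 u1 u2 u3 w : ℤ) : Prop where
  hA : r = c1 * u1 ^ 2
  hB : r + 9 * p * t ^ 2 = c2 * u2 ^ 2
  hC : r + 25 * p * t ^ 2 = c3 * u3 ^ 2
  hrt : IsCoprime r t
  hw : c1 * c2 * c3 = w ^ 2
  sq1 : Squarefree c1
  sq2 : Squarefree c2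
  sq3 : Squarefree c3
  hu1 : u1 ≠ 0
  hu2 : u2 ≠ 0
  hu3 : u3 ≠ 0
  ht : t ≠ 0

lemma sqfree_decomp (n : ℤ) (hn : n ≠ 0) : ∃ c u : ℤ, n = c * u ^ 2 ∧ Squarefree c ∧ u ≠ 0 := by
  obtain ⟨a, b, ha, hb, hab, hsq⟩ := Nat.sq_mul_squarefree_of_pos (Int.natAbs_pos.mpr hn)
  refine ⟨(Int.sign n) * a, b, ?_, ?_, by exact_mod_cast hb.ne'⟩
  · have h1 : (n.natAbs : ℤ) = (b : ℤ) ^ 2 * a := by
      rw [← hab]; push_cast; ring
    calc n = Int.sign n * (n.natAbs : ℤ) := (Int.sign_mul_natAbs n).symm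
      _ = _ := by rw [h1]; ring
  · rw [← Int.squarefree_natAbs, Int.natAbs_mul]
    have : (Int.sign n).natAbs = 1 := by
      rw [Int.natAbs_sign_of_ne_zero hn]
    rw [this, one_mul, Int.natAbs_natCast]
    exact hsq

/-- A rational point yields integer data. -/
theorem exists_data (p : ℤ) {x y : ℚ} (hy : y ≠ 0) (h : y ^ 2 = x * (x + 9 * p) * (x + 25 * p)) :
    ∃ r t c1 c2 c3 u1 u2 u3 w : ℤ, Data p r t c1 c2 c3 u1 u2 u3 w ∧
      x = c1 * ((u1 : ℚ) / t) ^ 2 ∧ x + 9 * p = c2 * ((u2 : ℚ) / t) ^ 2 ∧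
      x + 25 * p = c3 * ((u3 : ℚ) / t) ^ 2 ∧ 0 < t ∧ (r : ℚ) = x * t ^ 2 ∧
      r * (r + 9 * p * t ^ 2) * (r + 25 * p * t ^ 2) ≠ 0 ∧
      0 ≤ r * (r + 9 * p * t ^ 2) * (r + 25 * p * t ^ 2) := by
  have rat_rep : ∀ q : ℚ, ∃ n d : ℤ, 0 < d ∧ q = (n : ℚ) / d ∧ IsCoprime n d := by
    intro q
    refine ⟨q.num, q.den, by exact_mod_cast q.den_pos, by push_cast; exact (Rat.num_div_den q).symm, ?_⟩
    rw [Int.isCoprime_iff_gcd_eq_one]
    simpa [Int.gcd, Nat.Coprime] using q.reduced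
  obtain ⟨n, d, hd0, hxq, hnd⟩ := rat_rep x
  obtain ⟨m, e, he0, hyq, hme⟩ := rat_rep y
  have hdq : (d : ℚ) ≠ 0 := by exact_mod_cast hd0.ne'
  have heq : (e : ℚ) ≠ 0 := by exact_mod_cast he0.ne'
  have hm0 : m ≠ 0 := by
    intro h0
    apply hy
    rw [hyq, h0]; simp
  -- the integer equation
  have hint : m ^ 2 * d ^ 3 = n * (n + 9 * p * d) * (n + 25 * p * d) * e ^ 2 := by
    rw [hxq, hyq] at h
    field_simp at h
    have h' : (m : ℚ) ^ 2 * d ^ 3 = n * (n + 9 * p * d) * (n + 25 * p * d) * e ^ 2 := by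
      linear_combination h
    exact_mod_cast h'
  -- coprimality
  have hc1 : IsCoprime (n + 9 * p * d) d := by
    have : n + 9 * p * d = n + d * (9 * p) := by ring
    rw [this]
    exact (IsCoprime.add_mul_left_left_iff).mpr hnd
  have hc2 : IsCoprime (n + 25 * p * d) d := by
    have : n + 25 * p * d = n + d * (25 * p) := by ring
    rw [this]
    exact (IsCoprime.add_mul_left_left_iff).mpr hnd
  have hcop : IsCoprime (n * (n + 9 * p * d) * (n + 25 * p * d)) (d ^ 3) :=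
    IsCoprime.pow_right ((hnd.mul_left hc1).mul_left hc2)
  have hdvd1 : d ^ 3 ∣ e ^ 2 := by
    apply hcop.symm.dvd_of_dvd_mul_left
    exact ⟨m ^ 2, by rw [← hint]; ring⟩
  have hdvd2 : e ^ 2 ∣ d ^ 3 := by
    have hc : IsCoprime (e ^ 2) (m ^ 2) := (hme.symm).pow
    apply hc.dvd_of_dvd_mul_left
    exact ⟨n * (n + 9 * p * d) * (n + 25 * p * d), by rw [hint]; ring⟩
  have hde : d ^ 3 = e ^ 2 := by
    apply Int.dvd_antisymm (by positivity) (by positivity) hdvd1 hdvd2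
  -- d is a square
  have hde2 : d ^ 2 ∣ e ^ 2 := ⟨d, by rw [← hde]; ring⟩
  have hde1 : d ∣ e := (Int.pow_dvd_pow_iff two_ne_zero).mp hde2
  obtain ⟨t, rfl⟩ := hde1
  have ht0 : 0 < t := by
    by_contra hcon
    push Not at hcon
    have : d * t ≤ 0 := mul_nonpos_of_nonneg_of_nonpos hd0.le hcon
    omega
  have hdt : d = t ^ 2 := by
    have : d ^ 2 * d = d ^ 2 * t ^ 2 := by linear_combination hde
    exact mul_left_cancel₀ (by positivity) this
  subst hdt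
  have hqt : ((t : ℚ)) ≠ 0 := by exact_mod_cast ht0.ne'
  have hmain : m ^ 2 = n * (n + 9 * p * t ^ 2) * (n + 25 * p * t ^ 2) := by
    have hc : (t ^ 2 * t) ^ 2 ≠ 0 := by positivity
    apply mul_right_cancel₀ hc
    linear_combination hint
  have hnt : IsCoprime n t := by
    have : IsCoprime n (t ^ 2) := hnd
    exact IsCoprime.pow_right_iff (two_pos) |>.mp this
  have hprod : n * (n + 9 * p * t ^ 2) * (n + 25 * p * t ^ 2) ≠ 0 := by
    rw [← hmain]; exact pow_ne_zero 2 hm0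
  have hn0 : n ≠ 0 := fun h0 => hprod (by rw [h0]; ring)
  have hB0 : n + 9 * p * t ^ 2 ≠ 0 := fun h0 => hprod (by rw [h0]; ring)
  have hC0 : n + 25 * p * t ^ 2 ≠ 0 := fun h0 => hprod (by rw [h0]; ring)
  obtain ⟨c1, u1, hA, hs1, hu1⟩ := sqfree_decomp n hn0
  obtain ⟨c2, u2, hB, hs2, hu2⟩ := sqfree_decomp _ hB0
  obtain ⟨c3, u3, hC, hs3, hu3⟩ := sqfree_decomp _ hC0
  -- the square class relation
  have hU : (u1 * u2 * u3) ≠ 0 := mul_ne_zero (mul_ne_zero hu1 hu2) hu3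
  have hm2 : m ^ 2 = (c1 * c2 * c3) * (u1 * u2 * u3) ^ 2 := by
    have e : n * (n + 9 * p * t ^ 2) * (n + 25 * p * t ^ 2)
        = (c1 * u1 ^ 2) * (c2 * u2 ^ 2) * (c3 * u3 ^ 2) := by
      rw [← hA, ← hB, ← hC]
    rw [hmain, e]
    ring
  have hdv : (u1 * u2 * u3) ∣ m := by
    have : (u1 * u2 * u3) ^ 2 ∣ m ^ 2 := ⟨c1 * c2 * c3, by rw [hm2]; ring⟩
    exact (Int.pow_dvd_pow_iff two_ne_zero).mp this
  obtain ⟨w, hw⟩ := hdv
  have hww : c1 * c2 * c3 = w ^ 2 := by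
    have : (u1 * u2 * u3) ^ 2 * (c1 * c2 * c3) = (u1 * u2 * u3) ^ 2 * w ^ 2 := by
      rw [hw] at hm2
      linear_combination -hm2
    exact mul_left_cancel₀ (pow_ne_zero 2 hU) this
  refine ⟨n, t, c1, c2, c3, u1, u2, u3, w,
    ⟨hA, hB, hC, hnt, hww, hs1, hs2, hs3, hu1, hu2, hu3, ht0.ne'⟩, ?_, ?_, ?_, ht0, ?_, hprod, ?_⟩
  · have : (n : ℚ) = c1 * u1 ^ 2 := by exact_mod_cast hA
    rw [hxq]; push_cast
    rw [this]; field_simp
  · have : (n : ℚ) + 9 * p * t ^ 2 = c2 * u2 ^ 2 := by exact_mod_cast hB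
    rw [hxq]; push_cast
    rw [div_pow, ← mul_div_assoc, ← this]
    field_simp
  · have : (n : ℚ) + 25 * p * t ^ 2 = c3 * u3 ^ 2 := by exact_mod_cast hC
    rw [hxq]; push_cast
    rw [div_pow, ← mul_div_assoc, ← this]
    field_simp
  · rw [hxq]; push_cast; field_simp
  · rw [← hmain]; positivity

end Vale.Agent.Lib.P017
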