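import Mathlib

/-! A naive height on rationals and its growth under the doubling map. -/

namespace Vale.Agent.Lib.P017

/-- The naive height of a rational number. -/
def ht (x : ℚ) : ℕ := max x.num.natAbs x.den

lemma finite_ht_le (B : ℕ) : {x : ℚ | ht x ≤ B}.Finite := by
  have hfin : ((Set.Icc (-(B : ℤ)) B) ×ˢ (Set.Iic B)).Finite :=
    (Set.finite_Icc _ _).prod (Set.finite_Iic _)
  refine (hfin.image (fun z : ℤ × ℕ => (z.1 : ℚ) / z.2)).subset ?_
  intro x hx
  simp only [Set.mem_ofPred_eq, ht, max_le_iff] at hx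
  refine ⟨(x.num, x.den), ⟨?_, ?_⟩, Rat.num_div_den x⟩
  · simp only [Set.mem_Icc]
    omega
  · simpa using hx.2

/-- If all common divisors of `N, M` divide `G`, the height of `N / M` is large. -/
lemma ht_div_lower {N M : ℤ} (hM : M ≠ 0) {G : ℕ} (hG : G ≠ 0)
    (hg : ∀ g : ℤ, g ∣ N → g ∣ M → g ∣ (G : ℤ)) :
    N.natAbs ≤ G * ht ((N : ℚ) / M) ∧ M.natAbs ≤ G * ht ((N : ℚ) / M) := by
  set q : ℚ := (N : ℚ) / M with hq
  have hdq : (q.den : ℤ) ≠ 0 := by exact_mod_cast q.den_nz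
  have hMq : (M : ℚ) ≠ 0 := by exact_mod_cast hM
  have hcross : q.num * M = N * (q.den : ℤ) := by
    have h1 : (q.num : ℚ) / q.den = N / M := by rw [Rat.num_div_den]
    have hdq' : (q.den : ℚ) ≠ 0 := by exact_mod_cast q.den_nz
    rw [div_eq_div_iff hdq' hMq] at h1
    exact_mod_cast h1
  have hcop : IsCoprime (q.den : ℤ) q.num := by
    have := q.reduced
    rw [Nat.coprime_comm] at this
    rw [Int.isCoprime_iff_gcd_eq_one]
    simpa [Int.gcd, Nat.Coprime] using this
  have hdvd : (q.den : ℤ) ∣ M := by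
    apply hcop.dvd_of_dvd_mul_left
    exact ⟨N, by rw [hcross]; ring⟩
  obtain ⟨g, hgM⟩ := hdvd
  have hgN : N = q.num * g := by
    have : (q.den : ℤ) * N = (q.den : ℤ) * (q.num * g) := by
      rw [hgM] at hcross
      linear_combination -hcross
    exact mul_left_cancel₀ hdq this
  have hgG : g ∣ (G : ℤ) := hg g ⟨q.num, by rw [hgN]; ring⟩ ⟨q.den, by rw [hgM]; ring⟩
  have hgle : g.natAbs ≤ G := by
    have := Int.natAbs_dvd_natAbs.mpr hgG
    simpa using Nat.le_of_dvd (Nat.pos_of_ne_zero hG) this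
  have hle1 : q.num.natAbs ≤ ht q := le_max_left _ _
  have hle2 : q.den ≤ ht q := le_max_right _ _
  constructor
  · rw [hgN, Int.natAbs_mul, mul_comm]
    exact Nat.mul_le_mul hgle hle1
  · rw [hgM, Int.natAbs_mul, mul_comm]
    have : ((q.den : ℤ)).natAbs = q.den := Int.natAbs_natCast _
    rw [this]
    exact Nat.mul_le_mul hgle hle2

/-- The key identity behind the common divisor bound. -/
lemma dbl_identity (a b r s : ℤ) :
    (-3 * r ^ 2 + 2 * (a + b) * r * s + (a - b) ^ 2 * s ^ 2) * (r ^ 2 - a * b * s ^ 2) ^ 2 +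
      (3 * r ^ 3 + (a + b) * r ^ 2 * s - 5 * (a * b) * r * s ^ 2 - 2 * (a + b) * (a * b) * s ^ 3) *
        (r * (r - a * s) * (r - b * s)) = (a * b) ^ 2 * (a - b) ^ 2 * s ^ 6 := by
  ring

lemma dbl_gcd (a b r s : ℤ) (hrs : IsCoprime r s) (g : ℤ)
    (h1 : g ∣ (r ^ 2 - a * b * s ^ 2) ^ 2)
    (h2 : g ∣ 4 * s * (r * (r - a * s) * (r - b * s))) :
    g ∣ 4 * (a * b) ^ 2 * (a - b) ^ 2 := by
  have hc : IsCoprime ((r ^ 2 - a * b * s ^ 2) ^ 2) s := by
    have h3 : (r ^ 2 - a * b * s ^ 2) ^ 2 = r ^ 4 + s * ((a * b) ^ 2 * s ^ 3 - 2 * (a * b) * r ^ 2 * s) := by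
      ring
    rw [h3]
    have h4 : IsCoprime (r ^ 4) s := hrs.pow_left
    exact (IsCoprime.add_mul_left_left_iff).mpr h4
  have hgs : IsCoprime g s := hc.of_isCoprime_of_dvd_left h1
  have hgs7 : IsCoprime g (s ^ 7) := hgs.pow_right
  have hd : g ∣ (4 * (a * b) ^ 2 * (a - b) ^ 2) * s ^ 7 := by
    have := dvd_add
      (Dvd.dvd.mul_left h1 (4 * s * (-3 * r ^ 2 + 2 * (a + b) * r * s + (a - b) ^ 2 * s ^ 2)))
      (Dvd.dvd.mul_left h2
        (3 * r ^ 3 + (a + b) * r ^ 2 * s - 5 * (a * b) * r * s ^ 2 - 2 * (a + b) * (a * b) * s ^ 3))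
    have e := dbl_identity a b r s
    have key : (4 * (a * b) ^ 2 * (a - b) ^ 2) * s ^ 7 =
        4 * s * (-3 * r ^ 2 + 2 * (a + b) * r * s + (a - b) ^ 2 * s ^ 2) *
            (r ^ 2 - a * b * s ^ 2) ^ 2 +
          (3 * r ^ 3 + (a + b) * r ^ 2 * s - 5 * (a * b) * r * s ^ 2 -
            2 * (a + b) * (a * b) * s ^ 3) * (4 * s * (r * (r - a * s) * (r - b * s))) := by
      linear_combination (-4 * s) * e
    rw [key]
    exact this
  exact hgs7.dvd_of_dvd_mul_right hd

/-- Lower bound for the doubling polynomials in terms of the height of `r / s`. -/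
lemma dbl_lower (a b r s : ℤ) (ha : a ≠ 0) (hb : b ≠ 0) (hab : a ≠ b) (hs : 0 < s)
    (hr0 : r ≠ 0) (hra : r - a * s ≠ 0) (hrb : r - b * s ≠ 0) (L : ℤ)
    (hL : L = 2 * (|a| + |b| + 1)) (H : ℤ) (hH : H = max |r| s) :
    H ^ 3 ≤ 4 * L ^ 3 * |(r ^ 2 - a * b * s ^ 2) ^ 2| ∨
      H ^ 3 ≤ 4 * L ^ 3 * |4 * s * (r * (r - a * s) * (r - b * s))| := by
  have hLa : 0 ≤ |a| := abs_nonneg a
  have hLb : 0 ≤ |b| := abs_nonneg b
  have hL2 : 2 ≤ L := by rw [hL]; linarith
  have hHs : 1 ≤ H := by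
    rw [hH]; exact le_trans (by omega) (le_max_right _ _)
  by_cases hcase : L * s ≤ |r|
  · left
    have hsr : s ≤ |r| := by nlinarith
    have hHr : H = |r| := by rw [hH]; exact max_eq_left hsr
    -- r^2 <= 2 |U|
    have hrr : |r| ^ 2 = r ^ 2 := sq_abs r
    have hab' : |a * b| = |a| * |b| := abs_mul a b
    have hLsq : 2 * |a * b| ≤ L ^ 2 := by
      rw [hab', hL]; nlinarith [mul_nonneg hLa hLb]
    have hbig : 2 * |a * b| * s ^ 2 ≤ r ^ 2 := by
      have h1 : (L * s) ^ 2 ≤ |r| ^ 2 := pow_le_pow_left₀ (by positivity) hcase 2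
      rw [hrr] at h1
      have h2 : 2 * |a * b| * s ^ 2 ≤ L ^ 2 * s ^ 2 :=
        mul_le_mul_of_nonneg_right hLsq (by positivity)
      nlinarith
    have hU : r ^ 2 ≤ 2 * |r ^ 2 - a * b * s ^ 2| := by
      have h1 : r ^ 2 - |a * b| * s ^ 2 ≤ |r ^ 2 - a * b * s ^ 2| := by
        have : a * b * s ^ 2 ≤ |a * b| * s ^ 2 :=
          mul_le_mul_of_nonneg_right (le_abs_self _) (by positivity)
        have h3 := le_abs_self (r ^ 2 - a * b * s ^ 2)
        linarith
      nlinarith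
    have hU4 : (r ^ 2) ^ 2 ≤ 4 * (r ^ 2 - a * b * s ^ 2) ^ 2 := by
      have h1 : (r ^ 2) ^ 2 ≤ (2 * |r ^ 2 - a * b * s ^ 2|) ^ 2 :=
        pow_le_pow_left₀ (by positivity) hU 2
      rw [mul_pow, sq_abs] at h1
      linarith
    rw [abs_of_nonneg (by positivity : 0 ≤ (r ^ 2 - a * b * s ^ 2) ^ 2)]
    have hH4 : H ^ 4 = (r ^ 2) ^ 2 := by rw [hHr, ← hrr]; ring
    have hH3 : H ^ 3 ≤ H ^ 4 := by
      have : H ^ 4 = H ^ 3 * H := by ring
      rw [this]; nlinarith [pow_pos (by omega : 0 < H) 3]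
    have hL3 : 1 ≤ L ^ 3 := one_le_pow₀ (by omega)
    have hN : 0 ≤ (r ^ 2 - a * b * s ^ 2) ^ 2 := by positivity
    nlinarith
  · right
    push Not at hcase
    have hHle : H ≤ L * s := by
      rw [hH]; apply max_le hcase.le; nlinarith
    -- two of the three factors have absolute value at least s/2
    have hasa : s ≤ |a * s| := by
      rw [abs_mul, abs_of_pos hs]
      nlinarith [Int.one_le_abs ha]
    have hbsb : s ≤ |b * s| := by
      rw [abs_mul, abs_of_pos hs]
      nlinarith [Int.one_le_abs hb]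
    have habs : s ≤ |(a - b) * s| := by
      rw [abs_mul, abs_of_pos hs]
      nlinarith [Int.one_le_abs (sub_ne_zero.mpr hab)]
    have h1r := Int.one_le_abs hr0
    have h1a := Int.one_le_abs hra
    have h1b := Int.one_le_abs hrb
    have t12 : s ≤ |r| + |r - a * s| := by
      have : a * s = r - (r - a * s) := by ring
      rw [this] at hasa
      exact le_trans hasa (abs_sub _ _)
    have t13 : s ≤ |r| + |r - b * s| := by
      have : b * s = r - (r - b * s) := by ring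
      rw [this] at hbsb
      exact le_trans hbsb (abs_sub _ _)
    have t23 : s ≤ |r - a * s| + |r - b * s| := by
      have : (a - b) * s = (r - b * s) - (r - a * s) := by ring
      rw [this] at habs
      refine le_trans habs ((abs_sub _ _).trans ?_)
      linarith
    have hprod : s ^ 2 ≤ 4 * (|r| * |r - a * s| * |r - b * s|) := by
      set X := |r| with hX
      set Y := |r - a * s| with hY
      set Z := |r - b * s| with hZ
      have hX0 : 0 ≤ X := abs_nonneg _
      have hY0 : 0 ≤ Y := abs_nonneg _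
      have hZ0 : 0 ≤ Z := abs_nonneg _
      rcases le_or_gt s (2 * X) with h1 | h1
      · rcases le_or_gt s (2 * Y) with h2 | h2
        · have : s * s ≤ (2 * X) * (2 * Y) := mul_le_mul h1 h2 hs.le (by positivity)
          have : (2 * X) * (2 * Y) * 1 ≤ (2 * X) * (2 * Y) * Z :=
            mul_le_mul_of_nonneg_left h1b (by positivity)
          nlinarith
        · have h3 : s ≤ 2 * Z := by linarith
          have : s * s ≤ (2 * X) * (2 * Z) := mul_le_mul h1 h3 hs.le (by positivity)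
          have : (2 * X) * (2 * Z) * 1 ≤ (2 * X) * (2 * Z) * Y :=
            mul_le_mul_of_nonneg_left h1a (by positivity)
          nlinarith
      · have h2 : s ≤ 2 * Y := by linarith
        have h3 : s ≤ 2 * Z := by linarith
        have : s * s ≤ (2 * Y) * (2 * Z) := mul_le_mul h2 h3 hs.le (by positivity)
        have : (2 * Y) * (2 * Z) * 1 ≤ (2 * Y) * (2 * Z) * X :=
          mul_le_mul_of_nonneg_left h1r (by positivity)
        nlinarith
    have hM : s ^ 3 ≤ |4 * s * (r * (r - a * s) * (r - b * s))| := by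
      rw [abs_mul, abs_mul, abs_mul, abs_mul, abs_of_pos hs]
      have e : |(4 : ℤ)| = 4 := rfl
      rw [e]
      nlinarith
    have hH3 : H ^ 3 ≤ (L * s) ^ 3 := pow_le_pow_left₀ (by omega) hHle 3
    have hL3 : 0 ≤ L ^ 3 := by positivity
    have h3 : L ^ 3 * s ^ 3 ≤ L ^ 3 * |4 * s * (r * (r - a * s) * (r - b * s))| :=
      mul_le_mul_of_nonneg_left hM hL3
    have hMp : 0 ≤ L ^ 3 * |4 * s * (r * (r - a * s) * (r - b * s))| := by positivity
    rw [mul_pow] at hH3
    linarith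

/-- The doubling map on `x`-coordinates increases the height outside a finite set. -/
lemma exists_ht_bound (a b : ℤ) (ha : a ≠ 0) (hb : b ≠ 0) (hab : a ≠ b) :
    ∃ B : ℕ, ∀ x : ℚ, x ≠ 0 → x ≠ a → x ≠ b → B < ht x →
      ht x < ht ((x ^ 2 - a * b) ^ 2 / (4 * (x * (x - a) * (x - b)))) := by
  set Lnat : ℕ := 2 * (a.natAbs + b.natAbs + 1) with hLnat
  set G : ℕ := (4 * (a * b) ^ 2 * (a - b) ^ 2).natAbs with hGdef
  have hG : G ≠ 0 := by
    rw [hGdef, Int.natAbs_ne_zero]
    have : a - b ≠ 0 := sub_ne_zero.mpr hab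
    positivity
  refine ⟨4 * Lnat ^ 3 * G, ?_⟩
  intro x hx0 hxa hxb hB
  set r : ℤ := x.num with hr
  set s : ℤ := (x.den : ℤ) with hs
  have hs0 : 0 < s := by rw [hs]; exact_mod_cast x.den_pos
  have hsne : (s : ℚ) ≠ 0 := by exact_mod_cast hs0.ne'
  have hxrs : x = (r : ℚ) / s := by
    rw [hr, hs]; push_cast; exact (Rat.num_div_den x).symm
  have hrs : IsCoprime r s := by
    have := x.reduced
    rw [Int.isCoprime_iff_gcd_eq_one]
    simpa [Int.gcd, Nat.Coprime, hr, hs] using this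
  have hr0 : r ≠ 0 := by
    intro h; apply hx0; rw [hxrs, h]; simp
  have hra : r - a * s ≠ 0 := by
    intro h; apply hxa; rw [hxrs, div_eq_iff hsne]
    have : (r : ℚ) - a * s = 0 := by exact_mod_cast h
    linarith
  have hrb : r - b * s ≠ 0 := by
    intro h; apply hxb; rw [hxrs, div_eq_iff hsne]
    have : (r : ℚ) - b * s = 0 := by exact_mod_cast h
    linarith
  set N : ℤ := (r ^ 2 - a * b * s ^ 2) ^ 2 with hN
  set M : ℤ := 4 * s * (r * (r - a * s) * (r - b * s)) with hM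
  have hMne : M ≠ 0 := by
    rw [hM]; positivity
  have hdbl : (x ^ 2 - a * b) ^ 2 / (4 * (x * (x - a) * (x - b))) = (N : ℚ) / M := by
    have hr0' : (r : ℚ) ≠ 0 := by exact_mod_cast hr0
    have hra' : (r : ℚ) - a * s ≠ 0 := by exact_mod_cast hra
    have hrb' : (r : ℚ) - b * s ≠ 0 := by exact_mod_cast hrb
    have hra'' : (r : ℚ) / s - a ≠ 0 := by
      intro h; apply hra'; field_simp at h; linarith
    have hrb'' : (r : ℚ) / s - b ≠ 0 := by
      intro h; apply hrb'; field_simp at h; linarith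
    rw [hxrs, hN, hM]
    push_cast
    rw [div_eq_div_iff (by positivity) (by positivity)]
    field_simp
  rw [hdbl]
  obtain ⟨h1, h2⟩ := ht_div_lower (N := N) (M := M) hMne hG (by
    intro g hgN hgM
    have := dbl_gcd a b r s hrs g hgN hgM
    rw [hGdef, Int.natCast_natAbs]
    exact (dvd_abs _ _).mpr this)
  -- the lower bound
  have hlow := dbl_lower a b r s ha hb hab hs0 hr0 hra hrb ((Lnat : ℤ)) (by
      rw [hLnat]; push_cast; simp) ((ht x : ℕ) : ℤ) (by
      simp only [ht, hr, hs]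
      push_cast
      simp)
  -- convert to natural numbers
  set H := ht x with hHdef
  set H' := ht ((N : ℚ) / M) with hH'def
  have hfinal : H ^ 3 ≤ 4 * Lnat ^ 3 * (G * H') := by
    have h3 : ((H : ℤ)) ^ 3 ≤ 4 * (Lnat : ℤ) ^ 3 * ((G * H' : ℕ) : ℤ) := by
      have hL0 : (0 : ℤ) ≤ 4 * (Lnat : ℤ) ^ 3 := by positivity
      rcases hlow with h | h
      · refine h.trans (mul_le_mul_of_nonneg_left ?_ hL0)
        rw [Int.abs_eq_natAbs]
        exact_mod_cast h1
      · refine h.trans (mul_le_mul_of_nonneg_left ?_ hL0)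
        rw [Int.abs_eq_natAbs]
        exact_mod_cast h2
    exact_mod_cast h3
  by_contra hcon
  push Not at hcon
  have hHpos : 0 < H := lt_of_le_of_lt (Nat.zero_le _) hB
  have : H ^ 3 ≤ 4 * Lnat ^ 3 * G * H := by
    calc H ^ 3 ≤ 4 * Lnat ^ 3 * (G * H') := hfinal
      _ = 4 * Lnat ^ 3 * G * H' := by ring
      _ ≤ 4 * Lnat ^ 3 * G * H := Nat.mul_le_mul_left _ hcon
  have h4 : 4 * Lnat ^ 3 * G * H < H * H := Nat.mul_lt_mul_of_pos_right hB hHpos
  have h5 : H ^ 3 = H * H * H := by ring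
  have h6 : H * H ≤ H * H * H := Nat.le_mul_of_pos_right _ hHpos
  omega

end Vale.Agent.Lib.P017
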