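import Vale.Agent.Lib.P017.Curve
import Vale.Agent.Lib.P017.Height

/-! From a two-descent statement to finiteness of the group of rational points. -/

namespace Vale.Agent.Lib.P017

open WeierstrassCurve WeierstrassCurve.Affine

section torsion

variable {F : Type*} [Field F] [DecidableEq F] {W : Affine F} {e1 e2 e3 : F}

/-- The coordinates of a point. -/
def coord : W.Point → Option (F × F)
  | Point.zero => none
  | Point.some x y _ => some (x, y)

omit [DecidableEq F] in
lemma coord_injective : Function.Injective (coord (W := W)) := by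
  rintro (_ | ⟨x, y, h⟩) (_ | ⟨x', y', h'⟩) hc
  · rfl
  · simp [coord] at hc
  · simp [coord] at hc
  · simp only [coord, Option.some.injEq, Prod.mk.injEq] at hc
    obtain ⟨rfl, rfl⟩ := hc
    rfl

/-- The two-torsion is finite. -/
lemma IsCubic.finite_two_torsion (h : IsCubic W e1 e2 e3) (h2 : (2 : F) ≠ 0) :
    {P : W.Point | P + P = 0}.Finite := by
  classical
  have hfin : ({none, some (e1, 0), some (e2, 0), some (e3, 0)} : Set (Option (F × F))).Finite := by
    simp
  refine Set.Finite.of_finite_image (f := coord) (hfin.subset ?_) (coord_injective.injOn)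
  rintro _ ⟨P, hP, rfl⟩
  rcases P with _ | ⟨x, y, hxy⟩
  · simp [coord]
  · have hy : y = W.negY x y := by
      by_contra hne
      have := Point.add_self_of_Y_ne (h₁ := hxy) hne
      simp only [Set.mem_ofPred_eq] at hP
      rw [this] at hP
      exact Point.some_ne_zero _ hP
    rw [h.negY_eq] at hy
    have hy0 : y = 0 := by
      have : (2 : F) * y = 0 := by linear_combination hy
      exact (mul_eq_zero.mp this).resolve_left h2
    have hE := (h.equation_iff x y).mp hxy.1
    rw [hy0] at hE
    have hE' : (x - e1) * (x - e2) * (x - e3) = 0 := by rw [← hE]; ring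
    subst hy0
    simp only [coord, Set.mem_insert_iff, Set.mem_singleton_iff, Option.some.injEq,
      Prod.mk.injEq, and_true, reduceCtorEq, false_or]
    rcases mul_eq_zero.mp hE' with h' | h'
    · rcases mul_eq_zero.mp h' with h'' | h''
      · left; exact sub_eq_zero.mp h''
      · right; left; exact sub_eq_zero.mp h''
    · right; right; exact sub_eq_zero.mp h'

/-- Preimages of finite sets under doubling are finite. -/
lemma IsCubic.finite_double_preimage (h : IsCubic W e1 e2 e3) (h2 : (2 : F) ≠ 0)
    {s : Set W.Point} (hs : s.Finite) : {P : W.Point | P + P ∈ s}.Finite := by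
  have := Set.Finite.preimage' (f := fun P : W.Point => P + P) hs ?_
  · exact this
  · intro b _
    by_cases hb : ∃ P0 : W.Point, P0 + P0 = b
    · obtain ⟨P0, rfl⟩ := hb
      have ht := h.finite_two_torsion h2
      refine (ht.image (fun T => P0 + T)).subset ?_
      intro P hP
      simp only [Set.mem_preimage, Set.mem_singleton_iff] at hP
      refine ⟨P - P0, ?_, by change P0 + (P - P0) = P; abel⟩
      simp only [Set.mem_ofPred_eq]
      have : P - P0 + (P - P0) = (P + P) - (P0 + P0) := by abel
      rw [this, hP, sub_self]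
    · convert Set.finite_empty
      ext P
      simp only [Set.mem_preimage, Set.mem_singleton_iff, Set.mem_empty_iff_false, iff_false]
      exact fun hP => hb ⟨P, hP⟩

end torsion

section height

variable {W : Affine ℚ}

/-- The height of a rational point. -/
def hgt : W.Point → ℕ
  | Point.zero => 0
  | Point.some x _ _ => ht x

/-- The `x`-coordinate of a point. -/
def xc : W.Point → Option ℚ
  | Point.zero => none
  | Point.some x _ _ => some x

lemma finite_hgt_le (B : ℕ) : {P : W.Point | hgt P ≤ B}.Finite := by
  have hs : (insert none (some '' {x : ℚ | ht x ≤ B}) : Set (Option ℚ)).Finite :=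
    ((finite_ht_le B).image _).insert _
  have := Set.Finite.preimage' (f := xc (W := W)) hs ?_
  · refine this.subset ?_
    rintro (_ | ⟨x, y, hxy⟩) hP
    · simp [xc]
    · simp only [Set.mem_ofPred_eq, hgt] at hP
      simp only [xc, Set.mem_preimage, Set.mem_insert_iff, reduceCtorEq, Set.mem_image,
        Set.mem_ofPred_eq, Option.some.injEq, false_or]
      exact ⟨x, hP, rfl⟩
  · intro b _
    by_cases hb : ∃ P0 : W.Point, xc P0 = b
    · obtain ⟨P0, rfl⟩ := hb
      refine (Set.toFinite ({P0, -P0} : Set W.Point)).subset ?_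
      intro P hP
      simp only [Set.mem_preimage, Set.mem_singleton_iff] at hP
      rcases P with _ | ⟨x, y, hxy⟩ <;> rcases P0 with _ | ⟨x0, y0, hxy0⟩
      · simp
      · simp [xc] at hP
      · simp [xc] at hP
      · simp only [xc, Option.some.injEq] at hP
        have := (Point.X_eq_iff (h₁ := hxy) (h₂ := hxy0)).mp hP
        simpa using this
    · convert Set.finite_empty
      ext P
      simp only [Set.mem_preimage, Set.mem_singleton_iff, Set.mem_empty_iff_false, iff_false]
      exact fun hP => hb ⟨P, hP⟩

variable {a b : ℤ}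

/-- A set of rational points closed under halving is finite. -/
lemma finite_of_halving (h : IsCubic W 0 (a : ℚ) (b : ℚ)) (ha : a ≠ 0) (hb : b ≠ 0) (hab : a ≠ b)
    (S : Set W.Point) (hS : ∀ R ∈ S, ∃ R' ∈ S, R = R' + R') : S.Finite := by
  obtain ⟨B, hB⟩ := exists_ht_bound a b ha hb hab
  set S0 : Set W.Point := S ∩ {P | hgt P ≤ B} with hS0
  have hS0fin : S0.Finite := (finite_hgt_le B).subset Set.inter_subset_right
  set N : Submodule ℤ W.Point := Submodule.span ℤ S0 with hN
  have h2 : (2 : ℚ) ≠ 0 := by norm_num
  -- every element of S lies in N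
  have hSN : ∀ n : ℕ, ∀ R ∈ S, hgt R ≤ n → R ∈ N := by
    intro n
    induction n with
    | zero =>
      intro R hR hh
      exact Submodule.subset_span ⟨hR, by simp only [Set.mem_ofPred_eq]; omega⟩
    | succ n ih =>
      intro R hR hh
      by_cases hRB : hgt R ≤ B
      · exact Submodule.subset_span ⟨hR, hRB⟩
      obtain ⟨R', hR', hRR⟩ := hS R hR
      -- the height of R' is smaller than that of R or at most B
      rcases R' with _ | ⟨x, y, hxy⟩
      · exfalso
        apply hRB
        rw [hRR]
        have : (Point.zero : W.Point) = 0 := rfl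
        rw [this, add_zero]
        simp [hgt]
      · by_cases hy : y = 0
        · exfalso
          apply hRB
          have hneg : y = W.negY x y := by rw [h.negY_eq, hy]; simp
          rw [hRR, Point.add_self_of_Y_eq hneg]
          simp [hgt]
        · have hE := (h.equation_iff x y).mp hxy.1
          have hne : x * (x - a) * (x - b) ≠ 0 := by
            intro h0
            apply hy
            have : y ^ 2 = 0 := by rw [hE, sub_zero, h0]
            exact pow_eq_zero_iff two_ne_zero |>.mp this
          have hx0 : x ≠ 0 := fun h0 => hne (by rw [h0]; ring)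
          have hxa : x ≠ a := fun h0 => hne (by rw [h0]; ring)
          have hxb : x ≠ b := fun h0 => hne (by rw [h0]; ring)
          obtain ⟨x', y', hP', hadd, hx'⟩ := h.double_x h2 hxy hy
          have hR'2 : R = Point.some x' y' hP' := hRR.trans hadd
          have hgR : hgt R = ht x' := by rw [hR'2]; rfl
          have hmem : Point.some x y hxy ∈ N := by
            by_cases hxB : B < ht x
            · have hlt := hB x hx0 hxa hxb hxB
              rw [← hx'] at hlt
              exact ih _ hR' (by simp only [hgt]; omega)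
            · exact Submodule.subset_span ⟨hR', by simp only [Set.mem_ofPred_eq, hgt]; omega⟩
          rw [hRR]
          exact N.add_mem hmem hmem
  have hSN' : S ⊆ N := fun R hR => hSN (hgt R) R hR le_rfl
  -- N is contained in 2 N
  have hle : N ≤ (Ideal.span ({2} : Set ℤ)) • N := by
    rw [hN, Submodule.span_le]
    rintro Z ⟨hZ, -⟩
    obtain ⟨R', hR', hRR⟩ := hS Z hZ
    have hR'N : R' ∈ Submodule.span ℤ S0 := hSN' hR'
    have : Z = (2 : ℤ) • R' := by rw [hRR, two_zsmul]
    rw [this]
    exact Submodule.smul_mem_smul (Ideal.mem_span_singleton_self 2) hR'N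
  have hfg : N.FG := ⟨hS0fin.toFinset, by simp [hN]⟩
  obtain ⟨r, hr1, hr⟩ := Submodule.exists_sub_one_mem_and_smul_eq_zero_of_fg_of_le_smul _ N hfg hle
  have hr0 : r ≠ 0 := by
    rintro rfl
    rw [Ideal.mem_span_singleton] at hr1
    norm_num at hr1
  have : Module.Finite ℤ N := Module.Finite.iff_fg.mpr hfg
  have htors : Module.IsTorsion ℤ N := by
    intro x
    exact ⟨⟨r, mem_nonZeroDivisors_of_ne_zero hr0⟩, by
      ext
      exact hr x x.2⟩
  have hfinN : Finite N := Module.finite_of_fg_torsion N htors
  exact (Set.toFinite (N : Set W.Point)).subset hSN'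

/-- The master descent lemma. -/
theorem finite_of_descent (h : IsCubic W 0 (a : ℚ) (b : ℚ)) (ha : a ≠ 0) (hb : b ≠ 0) (hab : a ≠ b)
    (hd : ∀ P : W.Point, ∃ f Q : W.Point, (f + f) + (f + f) = 0 ∧ P = f + (Q + Q)) :
    Finite W.Point := by
  set S : Set W.Point := {P | ∃ R : W.Point, P = (R + R) + (R + R)} with hSdef
  have hS : S.Finite := by
    apply finite_of_halving h ha hb hab
    rintro _ ⟨R, rfl⟩
    obtain ⟨f, Q, hf, rfl⟩ := hd R
    refine ⟨(Q + Q) + (Q + Q), ⟨Q, rfl⟩, ?_⟩
    have e : (f + (Q + Q) + (f + (Q + Q))) + (f + (Q + Q) + (f + (Q + Q)))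
        = ((f + f) + (f + f)) + (((Q + Q) + (Q + Q)) + ((Q + Q) + (Q + Q))) := by abel
    rw [e, hf, zero_add]
  have h2 : (2 : ℚ) ≠ 0 := by norm_num
  have h1 := h.finite_double_preimage h2 hS
  have h3 := h.finite_double_preimage h2 h1
  have : (Set.univ : Set W.Point) ⊆ {P | P + P ∈ {P | P + P ∈ S}} := by
    intro P _
    exact ⟨P, rfl⟩
  exact Set.finite_univ_iff.mp (h3.subset this)

end height

end Vale.Agent.Lib.P017
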