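import Vale.Agent.Lib.P017.Points

/-! Passing from the rational points of the curve and its twist to points over the
quadratic field. -/

namespace Vale.Agent.Lib.P017

open WeierstrassCurve WeierstrassCurve.Affine

/-- The curve `y^2 = x (x - 9) (x - 25)`. -/
def EQ : Affine ℚ := ⟨0, -34, 0, 225, 0⟩

/-- The twist `y^2 = x (x + 9 P) (x + 25 P)`. -/
def ET (P : ℕ) : Affine ℚ := ⟨0, 34 * P, 0, 225 * P ^ 2, 0⟩

section sigma

variable (K : Type*) [Field K] [Algebra ℚ K]

/-- The nontrivial automorphism of a quadratic field. -/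
lemma exists_sigma (hK : Module.finrank ℚ K = 2) {P : ℕ} (hP : 0 < P) {α : K}
    (hα : α ^ 2 = -(P : K)) :
    ∃ σ : K →ₐ[ℚ] K, σ α = -α ∧ (∀ z, σ (σ z) = z) ∧
      (∀ z, σ z = z → ∃ q : ℚ, algebraMap ℚ K q = z) := by
  have : Algebra.IsQuadraticExtension ℚ K := { finrank_eq_two' := hK }
  have : FiniteDimensional ℚ K := Module.finite_of_finrank_pos (by rw [hK]; norm_num)
  have : IsGalois ℚ K := inferInstance
  have hcard : Nat.card (K ≃ₐ[ℚ] K) = 2 := by
    rw [IsGalois.card_aut_eq_finrank, hK]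
  obtain ⟨a, b, hab, huniv⟩ := Nat.card_eq_two_iff.mp hcard
  have hall : ∀ f : K ≃ₐ[ℚ] K, f = a ∨ f = b := by
    intro f
    have : f ∈ ({a, b} : Set (K ≃ₐ[ℚ] K)) := by rw [huniv]; trivial
    simpa using this
  obtain ⟨σ, hσ1, hσall⟩ : ∃ σ : K ≃ₐ[ℚ] K, σ ≠ 1 ∧ ∀ f : K ≃ₐ[ℚ] K, f = 1 ∨ f = σ := by
    by_cases ha : a = 1
    · refine ⟨b, fun hb => hab (ha.trans hb.symm), ?_⟩
      intro f; rcases hall f with h | h
      · left; rw [h, ha]
      · right; exact h
    · refine ⟨a, ha, ?_⟩
      intro f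
      rcases hall f with h | h
      · right; exact h
      · rcases hall 1 with h' | h'
        · exact absurd h'.symm ha
        · left; rw [h, ← h']
  have hσσ : σ * σ = 1 := by
    rcases hσall (σ * σ) with h | h
    · exact h
    · exfalso
      apply hσ1
      have : σ * σ = σ * 1 := by rw [h, mul_one]
      exact mul_left_cancel this
  have hfix : ∀ z, σ z = z → ∃ q : ℚ, algebraMap ℚ K q = z := by
    intro z hz
    have h1 : z ∈ (⊥ : IntermediateField ℚ K) := by
      rw [IsGalois.mem_bot_iff_fixed]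
      intro f
      rcases hσall f with h | h
      · rw [h]; rfl
      · rw [h]; exact hz
    exact IntermediateField.mem_bot.mp h1
  refine ⟨(σ : K →ₐ[ℚ] K), ?_, ?_, hfix⟩
  · change σ α = -α
    have h1 : (σ α) ^ 2 = α ^ 2 := by
      rw [← map_pow, hα]; simp
    have h2 : (σ α - α) * (σ α + α) = 0 := by linear_combination h1
    rcases mul_eq_zero.mp h2 with h3 | h3
    · exfalso
      obtain ⟨q, hq⟩ := hfix α (sub_eq_zero.mp h3)
      have h4 : algebraMap ℚ K (q ^ 2) = algebraMap ℚ K (-(P : ℚ)) := by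
        rw [map_pow, hq, hα]; simp
      have h5 := (algebraMap ℚ K).injective h4
      have h6 : (0 : ℚ) < P := by exact_mod_cast hP
      nlinarith [sq_nonneg q]
    · linear_combination h3
  · intro z
    have : (σ * σ) z = z := by rw [hσσ]; rfl
    exact this

end sigma

section main

variable {K : Type*} [Field K] [Algebra ℚ K]

lemma isCubic_EQ_Q : IsCubic (EQ⁄ℚ) 0 ((9 : ℤ) : ℚ) ((25 : ℤ) : ℚ) := by
  constructor <;> simp [EQ] <;> norm_num

lemma isCubic_EQ_K [CharZero K] : IsCubic (EQ⁄K) 0 9 25 := by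
  constructor <;> simp [EQ] <;> norm_num

lemma isCubic_ET (P : ℕ) : IsCubic (ET P) 0 (((-9 * (P : ℤ) : ℤ)) : ℚ) (((-25 * (P : ℤ) : ℤ)) : ℚ) := by
  constructor <;> simp [ET] <;> ring

/-- Points of the curve over a quadratic field, given finiteness over the rationals of the
curve and of its twist. -/
theorem finite_EQ_K (hK : Module.finrank ℚ K = 2) {P : ℕ} (hP : 0 < P) {α : K}
    (hα : α ^ 2 = -(P : K)) (hT : Finite (ET P).Point) (hQ : Finite (EQ⁄ℚ).Point) :
    Finite (EQ⁄K).Point := by
  classical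
  have : CharZero K := algebraRat.charZero K
  obtain ⟨σ, hσα, hσσ, hfix⟩ := exists_sigma K hK hP hα
  have hK0 : IsCubic (EQ⁄K) 0 9 25 := isCubic_EQ_K
  have h2K : (2 : K) ≠ 0 := two_ne_zero
  have hP0 : (P : ℚ) ≠ 0 := by exact_mod_cast hP.ne'
  have hPK : (P : K) ≠ 0 := by exact_mod_cast hP.ne'
  have hα0 : α ≠ 0 := by
    intro h0
    rw [h0] at hα
    apply hPK
    have : (0 : K) ^ 2 = 0 := by norm_num
    rw [this] at hα
    exact neg_eq_zero.mp hα.symm
  set Sg : (EQ⁄K).Point →+ (EQ⁄K).Point :=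
    Point.map (W' := EQ) (S := ℚ) (F := K) (K := K) σ with hSg
  have hSg_some : ∀ {x y : K} (h : (EQ⁄K).Nonsingular x y),
      Sg (Point.some x y h) = Point.some (σ x) (σ y)
        ((EQ.baseChange_nonsingular σ.injective x y).mpr h) := by
    intro x y h
    rfl
  have hSS : ∀ R, Sg (Sg R) = R := by
    rintro (_ | ⟨x, y, h⟩)
    · rfl
    · rw [hSg_some, hSg_some]
      simp only [Point.some.injEq]
      exact ⟨hσσ x, hσσ y⟩
  -- points fixed by the automorphism
  set F1 : Set (EQ⁄K).Point := {R | Sg R = R} with hF1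
  have hF1fin : F1.Finite := by
    refine (Set.finite_range (Point.map (W' := EQ) (S := ℚ) (F := ℚ) (K := K)
      (Algebra.ofId ℚ K))).subset ?_
    rintro (_ | ⟨x, y, h⟩) hR
    · exact ⟨0, rfl⟩
    · simp only [hF1, Set.mem_ofPred_eq] at hR
      rw [hSg_some] at hR
      simp only [Point.some.injEq] at hR
      obtain ⟨q1, hq1⟩ := hfix x hR.1
      obtain ⟨q2, hq2⟩ := hfix y hR.2
      have hE := (hK0.equation_iff x y).mp h.1
      have hEq : q2 ^ 2 = (q1 - 0) * (q1 - ((9 : ℤ) : ℚ)) * (q1 - ((25 : ℤ) : ℚ)) := by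
        apply (algebraMap ℚ K).injective
        rw [← hq1, ← hq2] at hE
        simpa using hE
      have hNS : (EQ⁄ℚ).Nonsingular q1 q2 :=
        isCubic_EQ_Q.nonsingular (by norm_num) (by norm_num) (by norm_num) (by norm_num) hEq
      refine ⟨Point.some q1 q2 hNS, ?_⟩
      rw [Point.map_some]
      simp only [Point.some.injEq]
      exact ⟨hq1, hq2⟩
  -- points negated by the automorphism
  set F2 : Set (EQ⁄K).Point := {R | Sg R = -R} with hF2
  have hF2fin : F2.Finite := by
    set g : (ET P).Point → Option (K × K) := fun t =>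
      (coord t).map (fun z => (algebraMap ℚ K (-z.1 / P), algebraMap ℚ K (z.2 / P ^ 2) * α)) with hg
    refine Set.Finite.of_finite_image (f := coord) ((Set.finite_range g).subset ?_)
      (coord_injective.injOn)
    rintro _ ⟨R, hR, rfl⟩
    rcases R with _ | ⟨x, y, h⟩
    · exact ⟨0, rfl⟩
    · simp only [hF2, Set.mem_ofPred_eq] at hR
      rw [hSg_some, Point.neg_some] at hR
      simp only [Point.some.injEq, hK0.negY_eq] at hR
      obtain ⟨x0, hx0⟩ := hfix x hR.1
      obtain ⟨y0, hy0⟩ := hfix (y / α) (by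
        rw [map_div₀, hR.2, hσα]; field_simp)
      have hy : y = algebraMap ℚ K y0 * α := by rw [hy0]; field_simp
      have hE := (hK0.equation_iff x y).mp h.1
      have hEq : -(P : ℚ) * y0 ^ 2 = x0 * (x0 - 9) * (x0 - 25) := by
        apply (algebraMap ℚ K).injective
        rw [hy, mul_pow, hα, ← hx0] at hE
        simp only [map_mul, map_neg, map_pow, map_sub, map_natCast, map_ofNat]
        linear_combination hE
      set X : ℚ := -(P : ℚ) * x0 with hX
      set Y : ℚ := (P : ℚ) ^ 2 * y0 with hY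
      have hT0 : IsCubic (ET P) 0 (((-9 * (P : ℤ) : ℤ)) : ℚ) (((-25 * (P : ℤ) : ℤ)) : ℚ) :=
        isCubic_ET P
      have hEq' : Y ^ 2 = (X - 0) * (X - (((-9 * (P : ℤ) : ℤ)) : ℚ)) *
          (X - (((-25 * (P : ℤ) : ℤ)) : ℚ)) := by
        rw [hX, hY]
        push_cast
        linear_combination (-(P : ℚ) ^ 3) * hEq
      have hNS : (ET P).Nonsingular X Y := by
        refine hT0.nonsingular (by norm_num) ?_ ?_ ?_ hEq'
        · push_cast
          intro h0; apply hP0; linarith
        · push_cast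
          intro h0; apply hP0; linarith
        · push_cast
          intro h0; apply hP0; linarith
      refine ⟨Point.some X Y hNS, ?_⟩
      simp only [hg, coord, Option.map_some, Option.some.injEq, Prod.mk.injEq]
      constructor
      · rw [hX, ← hx0]
        congr 1
        field_simp
      · rw [hY, hy]
        congr 2
        field_simp
  -- conclusion
  have hs : (Set.image2 (· + ·) F1 F2).Finite := Set.Finite.image2 _ hF1fin hF2fin
  have hfin := hK0.finite_double_preimage h2K hs
  have huniv : (Set.univ : Set (EQ⁄K).Point) ⊆ {R | R + R ∈ Set.image2 (· + ·) F1 F2} := by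
    intro R _
    refine ⟨R + Sg R, ?_, R - Sg R, ?_, by change (R + Sg R) + (R - Sg R) = R + R; abel⟩
    · simp only [hF1, Set.mem_ofPred_eq, map_add, hSS]
      abel
    · simp only [hF2, Set.mem_ofPred_eq, map_sub, hSS]
      abel
  exact Set.finite_univ_iff.mp (hfin.subset huniv)

/-- From the curve in the shape of two-torsion to the minimal model of `X_0(15)`. -/
theorem finite_X015 (hfin : Finite (EQ⁄K).Point) :
    Finite (WeierstrassCurve.Affine.Point ((⟨1, 1, 1, -10, -10⟩ : WeierstrassCurve ℚ).baseChange K)) := by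
  classical
  have : CharZero K := algebraRat.charZero K
  have hK0 : IsCubic (EQ⁄K) 0 9 25 := isCubic_EQ_K
  set W0 : Affine K := (⟨1, 1, 1, -10, -10⟩ : WeierstrassCurve ℚ).baseChange K with hW0
  set g : (EQ⁄K).Point → Option (K × K) := fun t =>
    (coord t).map (fun z => ((z.1 - 13) / 4, (z.2 - z.1 + 9) / 8)) with hg
  have hsub : (Set.univ : Set W0.Point) ⊆ coord ⁻¹' (Set.range g) := by
    rintro (_ | ⟨x, y, h⟩) -
    · exact ⟨0, rfl⟩
    · have hE : y ^ 2 + x * y + y = x ^ 3 + x ^ 2 - 10 * x - 10 := by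
        have := (Affine.equation_iff _ _).mp h.1
        simp [hW0] at this
        linear_combination this
      have hEq : (8 * y + 4 * x + 4) ^ 2 = (4 * x + 13 - 0) * (4 * x + 13 - 9) * (4 * x + 13 - 25) := by
        linear_combination 64 * hE
      have hNS : (EQ⁄K).Nonsingular (4 * x + 13) (8 * y + 4 * x + 4) :=
        hK0.nonsingular two_ne_zero (by norm_num) (by norm_num) (by norm_num) hEq
      refine ⟨Point.some _ _ hNS, ?_⟩
      simp only [hg, coord, Option.map_some, Option.some.injEq, Prod.mk.injEq]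
      constructor
      · field_simp; ring
      · field_simp; ring
  have hf : (Set.univ : Set W0.Point).Finite := by
    refine Set.Finite.of_finite_image (f := coord) ((Set.finite_range g).subset ?_)
      (coord_injective.injOn)
    rintro _ ⟨R, hR, rfl⟩
    exact hsub hR
  exact Set.finite_univ_iff.mp hf

/-- The main result for the twelve residue classes. -/
theorem finite_main {P : ℕ} (hP : P.Prime)
    (hmod : (P % 3 = 2 ∧ (P % 5 = 2 ∨ P % 5 = 3)) ∨ (P % 3 = 1 ∧ (P % 5 = 1 ∨ P % 5 = 4)))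
    (h8 : P % 8 = 3 ∨ P % 8 = 5 ∨ P % 8 = 7)
    (hK : Module.finrank ℚ K = 2) {α : K} (hα : α ^ 2 = -(P : K)) :
    Finite (WeierstrassCurve.Affine.Point ((⟨1, 1, 1, -10, -10⟩ : WeierstrassCurve ℚ).baseChange K)) :=
  finite_X015 (finite_EQ_K hK hP.pos hα (finite_pos hP hmod h8 (isCubic_ET P))
    (finite_base isCubic_EQ_Q))

end main

end Vale.Agent.Lib.P017
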