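import Mathlib

/-! Local conditions at an odd prime for the two-descent. -/

namespace Vale.Agent.Lib.P017

section local_odd

variable (l : ℕ) [hl : Fact l.Prime]

/-- The quadratic character of an integer modulo `l`. -/
noncomputable def chi (z : ℤ) : ℤ := quadraticChar (ZMod l) (z : ZMod l)

lemma chi_mul (a b : ℤ) : chi l (a * b) = chi l a * chi l b := by
  simp only [chi, Int.cast_mul, map_mul]

variable {l}

lemma ne_zero_of_not_dvd {z : ℤ} (h : ¬ (l : ℤ) ∣ z) : (z : ZMod l) ≠ 0 := by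
  rwa [Ne, ZMod.intCast_zmod_eq_zero_iff_dvd]

lemma chi_sq {z : ℤ} (h : ¬ (l : ℤ) ∣ z) : chi l (z ^ 2) = 1 := by
  simp only [chi, Int.cast_pow]
  exact quadraticChar_sq_one' (ne_zero_of_not_dvd h)

lemma chi_of_modEq {a b : ℤ} (h : (l : ℤ) ∣ a - b) : chi l a = chi l b := by
  have : (a : ZMod l) = (b : ZMod l) := by
    rw [eq_comm, ZMod.intCast_eq_intCast_iff_dvd_sub]
    exact h
  simp only [chi, this]

lemma lprime : Prime (l : ℤ) := Nat.prime_iff_prime_int.mp hl.out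

/-- `chi` of `c * u^2` if this is not divisible by `l`. -/
lemma chi_mul_sq {c u : ℤ} (h : ¬ (l : ℤ) ∣ c * u ^ 2) : chi l (c * u ^ 2) = chi l c := by
  have hu : ¬ (l : ℤ) ∣ u := fun h' => h (Dvd.dvd.mul_left (dvd_pow h' two_ne_zero) c)
  rw [chi_mul, chi_sq hu, mul_one]

lemma chi_sq_mul {k : ℤ} (hk : ¬ (l : ℤ) ∣ k) (a : ℤ) : chi l (k ^ 2 * a) = chi l a := by
  rw [chi_mul, chi_sq hk, one_mul]

lemma chi_ne_zero {z : ℤ} (h : ¬ (l : ℤ) ∣ z) : chi l z ≠ 0 := by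
  simp only [chi, Ne, quadraticChar_eq_zero_iff]
  exact ne_zero_of_not_dvd h

lemma chi_self_mul {z : ℤ} (h : ¬ (l : ℤ) ∣ z) : chi l z * chi l z = 1 := by
  have := quadraticChar_sq_one (F := ZMod l) (ne_zero_of_not_dvd h)
  simp only [chi]
  rw [← pow_two]
  exact this

/-- Lemma b: if `chi p = 1` then `chi cz = 1`. -/
lemma chi_third {p t k X Y Z cx cy cz ux uy uz w : ℤ}
    (hX : X = cx * ux ^ 2) (hY : Y = cy * uy ^ 2) (hZ : Z = cz * uz ^ 2)
    (hYX : Y - X = (l : ℤ) ^ 2 * (p * t ^ 2)) (hZX : Z - X = k ^ 2 * (p * t ^ 2))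
    (hXt : IsCoprime X t) (hw : cx * cy * cz = w ^ 2)
    (hpl : ¬ (l : ℤ) ∣ p) (hkl : ¬ (l : ℤ) ∣ k) (hczl : ¬ (l : ℤ) ∣ cz)
    (hchi : chi l p = 1) : chi l cz = 1 := by
  have hL := lprime (l := l)
  by_cases hlX : (l : ℤ) ∣ X
  · -- l divides X
    have hlt : ¬ (l : ℤ) ∣ t := fun h' =>
      hL.not_isUnit (hXt.isUnit_of_dvd' hlX h')
    have hpt : ¬ (l : ℤ) ∣ p * t ^ 2 := by
      intro h'
      rcases hL.dvd_or_dvd h' with h'' | h''
      · exact hpl h''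
      · exact hlt (hL.dvd_of_dvd_pow h'')
    have hkpt : ¬ (l : ℤ) ∣ k ^ 2 * (p * t ^ 2) := by
      intro h'
      rcases hL.dvd_or_dvd h' with h'' | h''
      · exact hkl (hL.dvd_of_dvd_pow h'')
      · exact hpt h''
    have hZm : (l : ℤ) ∣ Z - k ^ 2 * (p * t ^ 2) := by
      have : Z - k ^ 2 * (p * t ^ 2) = X := by linarith
      rw [this]; exact hlX
    have h1 := chi_of_modEq hZm
    have hZl : ¬ (l : ℤ) ∣ Z := by
      intro h'
      apply hkpt
      have := dvd_sub h' hZm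
      simpa using this
    have h2 : chi l Z = chi l cz := by
      rw [hZ] at hZl ⊢
      exact chi_mul_sq hZl
    rw [← h2, h1, chi_sq_mul hkl, chi_mul, chi_sq hlt, mul_one, hchi]
  · -- l does not divide X
    have hXm : (l : ℤ) ∣ Y - X := by
      rw [hYX]; exact Dvd.dvd.mul_right (dvd_pow_self _ two_ne_zero) _
    have hYl : ¬ (l : ℤ) ∣ Y := by
      intro h'
      apply hlX
      have := dvd_sub h' hXm
      simpa using this
    have hXc : chi l X = chi l cx := by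
      rw [hX] at hlX ⊢
      exact chi_mul_sq hlX
    have hYc : chi l Y = chi l cy := by
      rw [hY] at hYl ⊢
      exact chi_mul_sq hYl
    have hxy : chi l cx = chi l cy := by
      rw [← hXc, ← hYc]; exact (chi_of_modEq hXm).symm
    have hcx : ¬ (l : ℤ) ∣ cx := by
      intro h'; apply hlX; rw [hX]; exact Dvd.dvd.mul_right h' _
    have hcy : ¬ (l : ℤ) ∣ cy := by
      intro h'; apply hYl; rw [hY]; exact Dvd.dvd.mul_right h' _
    have hwl : ¬ (l : ℤ) ∣ w := by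
      intro h'
      have h1 : (l : ℤ) ∣ cx * cy * cz := by rw [hw]; exact dvd_pow h' two_ne_zero
      rcases hL.dvd_or_dvd h1 with h2 | h2
      · rcases hL.dvd_or_dvd h2 with h3 | h3
        · exact hcx h3
        · exact hcy h3
      · exact hczl h2
    have hchi1 := chi_sq hwl
    rw [← hw, chi_mul, chi_mul, ← hxy, chi_self_mul hcx, one_mul] at hchi1
    exact hchi1

/-- Lemma a: if `l` divides `cx` then `chi p = 1`. -/
lemma chi_of_dvd {p t k X Y Z cx cy cz ux uy uz w : ℤ}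
    (hX : X = cx * ux ^ 2) (hY : Y = cy * uy ^ 2) (hZ : Z = cz * uz ^ 2)
    (hYX : Y - X = (l : ℤ) ^ 2 * (p * t ^ 2)) (hZX : Z - X = k ^ 2 * (p * t ^ 2))
    (hXt : IsCoprime X t) (hw : cx * cy * cz = w ^ 2)
    (hsqx : Squarefree cx) (hsqy : Squarefree cy)
    (hpl : ¬ (l : ℤ) ∣ p) (hkl : ¬ (l : ℤ) ∣ k) (hczl : ¬ (l : ℤ) ∣ cz)
    (hlx : (l : ℤ) ∣ cx) (hly : (l : ℤ) ∣ cy) : chi l p = 1 := by
  have hL := lprime (l := l)
  have hl0 : (l : ℤ) ≠ 0 := hL.ne_zero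
  obtain ⟨c1, rfl⟩ := hlx
  obtain ⟨c2, rfl⟩ := hly
  have hc1 : ¬ (l : ℤ) ∣ c1 := by
    intro h'
    obtain ⟨d, rfl⟩ := h'
    have := hsqx (l : ℤ) ⟨d, by ring⟩
    exact hL.not_isUnit this
  have hc2 : ¬ (l : ℤ) ∣ c2 := by
    intro h'
    obtain ⟨d, rfl⟩ := h'
    have := hsqy (l : ℤ) ⟨d, by ring⟩
    exact hL.not_isUnit this
  have hlX : (l : ℤ) ∣ X := by rw [hX]; exact ⟨c1 * ux ^ 2, by ring⟩
  have hlt : ¬ (l : ℤ) ∣ t := fun h' => hL.not_isUnit (hXt.isUnit_of_dvd' hlX h')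
  have hpt : ¬ (l : ℤ) ∣ p * t ^ 2 := by
    intro h'
    rcases hL.dvd_or_dvd h' with h'' | h''
    · exact hpl h''
    · exact hlt (hL.dvd_of_dvd_pow h'')
  have hkpt : ¬ (l : ℤ) ∣ k ^ 2 * (p * t ^ 2) := by
    intro h'
    rcases hL.dvd_or_dvd h' with h'' | h''
    · exact hkl (hL.dvd_of_dvd_pow h'')
    · exact hpt h''
  -- the relation after dividing by l
  have hrel : c2 * uy ^ 2 - c1 * ux ^ 2 = (l : ℤ) * (p * t ^ 2) := by
    have : (l : ℤ) * (c2 * uy ^ 2 - c1 * ux ^ 2) = (l : ℤ) * ((l : ℤ) * (p * t ^ 2)) := by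
      rw [hX, hY] at hYX
      linear_combination hYX
    exact mul_left_cancel₀ hl0 this
  have hux : ¬ (l : ℤ) ∣ ux := by
    intro h'
    have h1 : (l : ℤ) ∣ c2 * uy ^ 2 := by
      have : c2 * uy ^ 2 = c1 * ux ^ 2 + (l : ℤ) * (p * t ^ 2) := by linarith
      rw [this]
      exact dvd_add (Dvd.dvd.mul_left (dvd_pow h' two_ne_zero) _) (Dvd.intro _ rfl)
    have h2 : (l : ℤ) ∣ uy := by
      rcases hL.dvd_or_dvd h1 with h3 | h3
      · exact absurd h3 hc2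
      · exact hL.dvd_of_dvd_pow h3
    obtain ⟨a, rfl⟩ := h'
    obtain ⟨b, rfl⟩ := h2
    apply hpt
    have : (l : ℤ) * ((l : ℤ) * (c2 * b ^ 2 - c1 * a ^ 2)) = (l : ℤ) * (p * t ^ 2) := by
      linear_combination hrel
    exact ⟨_, (mul_left_cancel₀ hl0 this).symm⟩
  have hxm : ¬ (l : ℤ) ∣ c1 * ux ^ 2 := by
    intro h'
    rcases hL.dvd_or_dvd h' with h'' | h''
    · exact hc1 h''
    · exact hux (hL.dvd_of_dvd_pow h'')
  have hm : (l : ℤ) ∣ c2 * uy ^ 2 - c1 * ux ^ 2 := by rw [hrel]; exact Dvd.intro _ rfl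
  have hym : ¬ (l : ℤ) ∣ c2 * uy ^ 2 := by
    intro h'
    apply hxm
    have := dvd_sub h' hm
    simpa using this
  have hcc : chi l c1 = chi l c2 := by
    rw [← chi_mul_sq hxm, ← chi_mul_sq hym]
    exact (chi_of_modEq hm).symm
  -- the square relation
  have hlw : (l : ℤ) ∣ w := by
    have : (l : ℤ) ∣ w ^ 2 := by rw [← hw]; exact ⟨c1 * ((l : ℤ) * c2) * cz, by ring⟩
    exact hL.dvd_of_dvd_pow this
  obtain ⟨w', rfl⟩ := hlw
  have hw' : c1 * c2 * cz = w' ^ 2 := by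
    have : (l : ℤ) ^ 2 * (c1 * c2 * cz) = (l : ℤ) ^ 2 * w' ^ 2 := by
      linear_combination hw
    exact mul_left_cancel₀ (pow_ne_zero 2 hl0) this
  have hwl : ¬ (l : ℤ) ∣ w' := by
    intro h'
    have h1 : (l : ℤ) ∣ c1 * c2 * cz := by rw [hw']; exact dvd_pow h' two_ne_zero
    rcases hL.dvd_or_dvd h1 with h2 | h2
    · rcases hL.dvd_or_dvd h2 with h3 | h3
      · exact hc1 h3
      · exact hc2 h3
    · exact hczl h2
  have hcz : chi l cz = 1 := by
    have hchi1 := chi_sq hwl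
    rw [← hw', chi_mul, chi_mul, ← hcc, chi_self_mul hc1, one_mul] at hchi1
    exact hchi1
  -- finish with Z
  have hZm : (l : ℤ) ∣ Z - k ^ 2 * (p * t ^ 2) := by
    have : Z - k ^ 2 * (p * t ^ 2) = X := by linarith
    rw [this]; exact hlX
  have h1 := chi_of_modEq hZm
  have hZl : ¬ (l : ℤ) ∣ Z := by
    intro h'
    apply hkpt
    have := dvd_sub h' hZm
    simpa using this
  have h2 : chi l Z = chi l cz := by
    rw [hZ] at hZl ⊢
    exact chi_mul_sq hZl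
  rw [h2, hcz, chi_sq_mul hkl, chi_mul, chi_sq hlt, mul_one] at h1
  exact h1.symm

end local_odd

end Vale.Agent.Lib.P017
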