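import Vale.Agent.Lib.P017.Classes

/-! The classification for the twist by `-P`. -/

namespace Vale.Agent.Lib.P017

lemma fact3 : Fact (Nat.Prime 3) := ⟨by norm_num⟩
lemma fact5 : Fact (Nat.Prime 5) := ⟨by norm_num⟩

attribute [local instance] fact3 fact5

lemma not_sq_2_3 : ¬ IsSquare (2 : ZMod 3) := by decide
lemma not_sq_2_5 : ¬ IsSquare (2 : ZMod 5) := by decide
lemma not_sq_3_5 : ¬ IsSquare (3 : ZMod 5) := by decide
lemma sq_4_5 : IsSquare (4 : ZMod 5) := by decide
lemma ne_4_5 : (4 : ZMod 5) ≠ 0 := by decide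

lemma chi3_one {z : ℤ} (h : z % 3 = 1) : chi 3 z = 1 := by
  have : (z : ZMod 3) = 1 := by
    have : (z : ZMod 3) = ((1 : ℤ) : ZMod 3) :=
      (ZMod.intCast_eq_intCast_iff' z 1 3).mpr (by simpa using h)
    simpa using this
  simp only [chi, this, map_one]

lemma chi3_two {z : ℤ} (h : z % 3 = 2) : chi 3 z = -1 := by
  have : (z : ZMod 3) = 2 := by
    have : (z : ZMod 3) = ((2 : ℤ) : ZMod 3) :=
      (ZMod.intCast_eq_intCast_iff' z 2 3).mpr (by simpa using h)
    simpa using this
  simp only [chi, this]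
  rw [quadraticChar_neg_one_iff_not_isSquare]
  exact not_sq_2_3

lemma chi5_one {z : ℤ} (h : z % 5 = 1 ∨ z % 5 = 4) : chi 5 z = 1 := by
  rcases h with h | h
  · have : (z : ZMod 5) = 1 := by
      have : (z : ZMod 5) = ((1 : ℤ) : ZMod 5) :=
        (ZMod.intCast_eq_intCast_iff' z 1 5).mpr (by simpa using h)
      simpa using this
    simp only [chi, this, map_one]
  · have : (z : ZMod 5) = 4 := by
      have : (z : ZMod 5) = ((4 : ℤ) : ZMod 5) :=
        (ZMod.intCast_eq_intCast_iff' z 4 5).mpr (by simpa using h)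
      simpa using this
    simp only [chi, this]
    rw [quadraticChar_one_iff_isSquare ne_4_5]
    exact sq_4_5

lemma chi5_two {z : ℤ} (h : z % 5 = 2 ∨ z % 5 = 3) : chi 5 z = -1 := by
  rcases h with h | h
  · have : (z : ZMod 5) = 2 := by
      have : (z : ZMod 5) = ((2 : ℤ) : ZMod 5) :=
        (ZMod.intCast_eq_intCast_iff' z 2 5).mpr (by simpa using h)
      simpa using this
    simp only [chi, this]
    rw [quadraticChar_neg_one_iff_not_isSquare]
    exact not_sq_2_5
  · have : (z : ZMod 5) = 3 := by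
      have : (z : ZMod 5) = ((3 : ℤ) : ZMod 5) :=
        (ZMod.intCast_eq_intCast_iff' z 3 5).mpr (by simpa using h)
      simpa using this
    simp only [chi, this]
    rw [quadraticChar_neg_one_iff_not_isSquare]
    exact not_sq_3_5

lemma prime_cast {q : ℕ} (hq : q.Prime) : Prime (q : ℤ) := Nat.prime_iff_prime_int.mp hq

lemma pr2 : Prime (2 : ℤ) := Int.prime_two
lemma pr3 : Prime (3 : ℤ) := Int.prime_three
lemma pr5 : Prime (5 : ℤ) := by exact_mod_cast prime_cast (q := 5) (by norm_num)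

lemma dvd9 {q P : ℕ} (hq : q.Prime) (hP : P.Prime) (h : (q : ℤ) ∣ 9 * (P : ℤ)) : q = 3 ∨ q = P := by
  have h1 : q ∣ 9 * P := by exact_mod_cast h
  rcases (Nat.Prime.dvd_mul hq).mp h1 with h2 | h2
  · left
    have : q ∣ 3 ^ 2 := by norm_num; exact h2
    exact (Nat.prime_dvd_prime_iff_eq hq (by norm_num)).mp (hq.dvd_of_dvd_pow this)
  · right; exact (Nat.prime_dvd_prime_iff_eq hq hP).mp h2

lemma dvd25 {q P : ℕ} (hq : q.Prime) (hP : P.Prime) (h : (q : ℤ) ∣ 25 * (P : ℤ)) : q = 5 ∨ q = P := by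
  have h1 : q ∣ 25 * P := by exact_mod_cast h
  rcases (Nat.Prime.dvd_mul hq).mp h1 with h2 | h2
  · left
    have : q ∣ 5 ^ 2 := by norm_num; exact h2
    exact (Nat.prime_dvd_prime_iff_eq hq (by norm_num)).mp (hq.dvd_of_dvd_pow this)
  · right; exact (Nat.prime_dvd_prime_iff_eq hq hP).mp h2

lemma dvd16 {q P : ℕ} (hq : q.Prime) (hP : P.Prime) (h : (q : ℤ) ∣ 16 * (P : ℤ)) : q = 2 ∨ q = P := by
  have h1 : q ∣ 16 * P := by exact_mod_cast h
  rcases (Nat.Prime.dvd_mul hq).mp h1 with h2 | h2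
  · left
    have : q ∣ 2 ^ 4 := by norm_num; exact h2
    exact (Nat.prime_dvd_prime_iff_eq hq (by norm_num)).mp (hq.dvd_of_dvd_pow this)
  · right; exact (Nat.prime_dvd_prime_iff_eq hq hP).mp h2

/-- A squarefree integer whose only prime divisors are among `u, v` has one of four absolute values. -/
lemma abs_two_primes {c : ℤ} (hc : Squarefree c) {u v : ℕ}
    (h : ∀ q : ℕ, q.Prime → (q : ℤ) ∣ c → q = u ∨ q = v) :
    c.natAbs = 1 ∨ c.natAbs = u ∨ c.natAbs = v ∨ c.natAbs = u * v := by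
  apply sqfree_two_primes (Int.squarefree_natAbs.mpr hc)
  intro q hq hqc
  exact h q hq (Int.natCast_dvd.mpr hqc)

lemma abs_one_prime {c : ℤ} (hc : Squarefree c) {P : ℕ} (hP : P.Prime)
    (h : ∀ q : ℕ, q.Prime → (q : ℤ) ∣ c → q = P) :
    c = 1 ∨ c = -1 ∨ c = P ∨ c = -P := by
  have h1 := abs_two_primes hc (u := P) (v := P) (fun q hq hqc => Or.inl (h q hq hqc))
  have h2 : c.natAbs ≠ P * P := by
    intro h3
    have h4 := Int.squarefree_natAbs.mpr hc
    rw [h3] at h4
    exact hP.one_lt.ne' (Nat.isUnit_iff.mp (h4 P dvd_rfl))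
  have h3 : c.natAbs = 1 ∨ c.natAbs = P := by
    rcases h1 with h1 | h1 | h1 | h1
    · exact Or.inl h1
    · exact Or.inr h1
    · exact Or.inr h1
    · exact absurd h1 h2
  rcases h3 with h3 | h3
  · rcases Int.natAbs_eq c with h4 | h4
    · left; rw [h4, h3]; rfl
    · right; left; rw [h4, h3]; rfl
  · rcases Int.natAbs_eq c with h4 | h4
    · right; right; left; rw [h4, h3]
    · right; right; right; rw [h4, h3]

/-- Casting positive residues into `ZMod 8`. -/
lemma zmod8_of_mod {P : ℕ} {a : ℕ} (h : P % 8 = a) : ((P : ℤ) : ZMod 8) = (a : ZMod 8) := by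
  have : ((P : ℕ) : ZMod 8) = (a : ZMod 8) := by
    rw [ZMod.natCast_eq_natCast_iff']
    have ha : a < 8 := by rw [← h]; exact Nat.mod_lt _ (by norm_num)
    rw [h, Nat.mod_eq_of_lt ha]
  simpa using this

/-- The classification of the four classes for the twist by `-P`. -/
theorem classes_pos {P : ℕ} (hP : P.Prime) {r t c1 c2 c3 u1 u2 u3 w : ℤ}
    (hmod : (P % 3 = 2 ∧ (P % 5 = 2 ∨ P % 5 = 3)) ∨ (P % 3 = 1 ∧ (P % 5 = 1 ∨ P % 5 = 4)))
    (h8 : P % 8 = 3 ∨ P % 8 = 5 ∨ P % 8 = 7)
    (D : Data (P : ℤ) r t c1 c2 c3 u1 u2 u3 w)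
    (hne : r * (r + 9 * P * t ^ 2) * (r + 25 * P * t ^ 2) ≠ 0)
    (hnn : 0 ≤ r * (r + 9 * P * t ^ 2) * (r + 25 * P * t ^ 2)) :
    (c1 = 1 ∧ c2 = 1 ∧ c3 = 1) ∨ (c1 = 1 ∧ c2 = P ∧ c3 = P) ∨
      (c1 = -P ∧ c2 = -1 ∧ c3 = P) ∨ (c1 = -P ∧ c2 = -P ∧ c3 = 1) := by
  have hP0 : (0 : ℤ) < P := by exact_mod_cast hP.pos
  have hP2 : P ≠ 2 := by rintro rfl; omega
  have hP3 : P ≠ 3 := by rintro rfl; omega
  have hP5 : P ≠ 5 := by rintro rfl; omega
  -- positivity of C
  have hC0 : 0 < r + 25 * P * t ^ 2 := by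
    have ht2 : 0 < (P : ℤ) * t ^ 2 := mul_pos hP0 (by have := D.ht; positivity)
    by_contra hcon
    push Not at hcon
    have h1 : r < 0 := by nlinarith
    have h2 : r + 9 * P * t ^ 2 < 0 := by nlinarith
    have h3 : r + 25 * P * t ^ 2 < 0 := by
      rcases hcon.lt_or_eq with h | h
      · exact h
      · exact absurd (by rw [h]; ring) hne
    have := mul_pos_of_neg_of_neg h1 h2
    have h4 := mul_neg_of_pos_of_neg this h3
    linarith
  have hc3pos : 0 < c3 := by
    rw [D.hC] at hC0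
    by_contra hcon
    push Not at hcon
    have : c3 * u3 ^ 2 ≤ 0 := mul_nonpos_of_nonpos_of_nonneg hcon (by positivity)
    linarith
  -- prime divisors
  have hq1 : ∀ q : ℕ, q.Prime → (q : ℤ) ∣ c1 → q = 3 ∨ q = 5 ∨ q = P := by
    intro q hq h
    rcases D.share1 (prime_cast hq) h with h' | h'
    · rcases dvd9 hq hP h' with h'' | h''
      · exact Or.inl h''
      · exact Or.inr (Or.inr h'')
    · rcases dvd25 hq hP h' with h'' | h''
      · exact Or.inr (Or.inl h'')
      · exact Or.inr (Or.inr h'')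
  have hq2 : ∀ q : ℕ, q.Prime → (q : ℤ) ∣ c2 → q = 2 ∨ q = 3 ∨ q = P := by
    intro q hq h
    rcases D.share2 (prime_cast hq) h with h' | h'
    · rcases dvd9 hq hP h' with h'' | h''
      · exact Or.inr (Or.inl h'')
      · exact Or.inr (Or.inr h'')
    · rcases dvd16 hq hP h' with h'' | h''
      · exact Or.inl h''
      · exact Or.inr (Or.inr h'')
  have hq3 : ∀ q : ℕ, q.Prime → (q : ℤ) ∣ c3 → q = 2 ∨ q = 5 ∨ q = P := by
    intro q hq h
    rcases D.share3 (prime_cast hq) h with h' | h'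
    · rcases dvd25 hq hP h' with h'' | h''
      · exact Or.inr (Or.inl h'')
      · exact Or.inr (Or.inr h'')
    · rcases dvd16 hq hP h' with h'' | h''
      · exact Or.inl h''
      · exact Or.inr (Or.inr h'')
  have h2c1 : ¬ (2 : ℤ) ∣ c1 := by
    intro h
    rcases hq1 2 (by norm_num) (by exact_mod_cast h) with h' | h' | h'
    · omega
    · omega
    · exact hP2 h'.symm
  have h3c3 : ¬ (3 : ℤ) ∣ c3 := by
    intro h
    rcases hq3 3 (by norm_num) (by exact_mod_cast h) with h' | h' | h'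
    · omega
    · omega
    · exact hP3 h'.symm
  have h5c2 : ¬ (5 : ℤ) ∣ c2 := by
    intro h
    rcases hq2 5 (by norm_num) (by exact_mod_cast h) with h' | h' | h'
    · omega
    · omega
    · exact hP5 h'.symm
  have hw213 : c2 * c1 * c3 = w ^ 2 := by rw [← D.hw]; ring
  have hw312 : c3 * c1 * c2 = w ^ 2 := by rw [← D.hw]; ring
  have hw132 : c1 * c3 * c2 = w ^ 2 := by rw [← D.hw]; ring
  have h31 : (3 : ℤ) ∣ c1 → (3 : ℤ) ∣ c2 := fun h =>
    (share pr3 D.hw D.sq1 h).resolve_right h3c3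
  have h32 : (3 : ℤ) ∣ c2 → (3 : ℤ) ∣ c1 := fun h =>
    (share pr3 hw213 D.sq2 h).resolve_right h3c3
  have h51 : (5 : ℤ) ∣ c1 → (5 : ℤ) ∣ c3 := fun h =>
    (share pr5 D.hw D.sq1 h).resolve_left h5c2
  have h53 : (5 : ℤ) ∣ c3 → (5 : ℤ) ∣ c1 := fun h =>
    (share pr5 hw312 D.sq3 h).resolve_right h5c2
  have h22 : (2 : ℤ) ∣ c2 → (2 : ℤ) ∣ c3 := fun h =>
    (share pr2 hw213 D.sq2 h).resolve_left h2c1
  have h23 : (2 : ℤ) ∣ c3 → (2 : ℤ) ∣ c2 := fun h =>
    (share pr2 hw312 D.sq3 h).resolve_left h2c1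
  -- residues
  have hPodd : Odd (P : ℤ) := by
    rw [Int.odd_iff]; omega
  have hc1odd : Odd c1 := by
    rcases Int.even_or_odd c1 with h | h
    · exact absurd h.two_dvd h2c1
    · exact h
  have hP8 : ((P : ℤ) : ZMod 8) = 3 ∨ ((P : ℤ) : ZMod 8) = 5 ∨ ((P : ℤ) : ZMod 8) = 7 := by
    rcases h8 with h | h | h
    · left; rw [zmod8_of_mod h]; rfl
    · right; left; rw [zmod8_of_mod h]; rfl
    · right; right; rw [zmod8_of_mod h]; rfl
  have hP81 : ((P : ℤ) : ZMod 8) ≠ 1 := by
    rcases hP8 with h | h | h <;> rw [h] <;> decide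
  -- the hypothesis for the 2-adic lemma
  have hc3' : ∀ c' : ℤ, c3 = 2 * c' → ((P : ℤ) : ZMod 8) = 5 →
      (c' : ZMod 8) = 1 ∨ (c' : ZMod 8) = 5 := by
    intro c' hc' hP5'
    subst hc'
    have hsq : Squarefree c' := D.sq3.of_mul_right
    have h2c' : ¬ (2 : ℤ) ∣ c' := by
      rintro ⟨d, rfl⟩
      exact pr2.not_isUnit (D.sq3 2 ⟨d, by ring⟩)
    have hc'pos : 0 < c' := by linarith
    have hprimes : ∀ q : ℕ, q.Prime → (q : ℤ) ∣ c' → q = 5 ∨ q = P := by
      intro q hq hqc
      rcases hq3 q hq (Dvd.dvd.mul_left hqc 2) with h' | h' | h'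
      · subst h'; exact absurd (by exact_mod_cast hqc) h2c'
      · exact Or.inl h'
      · exact Or.inr h'
    have hcast : c' = (c'.natAbs : ℤ) := by omega
    rcases abs_two_primes hsq hprimes with h' | h' | h' | h' <;> rw [hcast, h']
    · left; simp
    · right; simp
    · right; push_cast; exact_mod_cast hP5'
    · left
      push_cast
      have : ((P : ℕ) : ZMod 8) = 5 := by exact_mod_cast hP5'
      rw [this]
      decide
  obtain ⟨h2c2, hres1, hres2⟩ := two_adic D.hA D.hB D.hC D.hrt D.hw hPodd hc1odd D.sq2 D.sq3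
    ⟨h22, h23⟩ hc3' hP81
  have h2c3 : ¬ (2 : ℤ) ∣ c3 := fun h => h2c2 (h23 h)
  -- the relations for the odd local lemmas
  have hYX3 : (r + 9 * P * t ^ 2) - r = ((3 : ℕ) : ℤ) ^ 2 * ((P : ℤ) * t ^ 2) := by
    push_cast; ring
  have hZX3 : (r + 25 * P * t ^ 2) - r = (5 : ℤ) ^ 2 * ((P : ℤ) * t ^ 2) := by ring
  have hYX5 : (r + 25 * P * t ^ 2) - r = ((5 : ℕ) : ℤ) ^ 2 * ((P : ℤ) * t ^ 2) := by
    push_cast; ring
  have hZX5 : (r + 9 * P * t ^ 2) - r = (3 : ℤ) ^ 2 * ((P : ℤ) * t ^ 2) := by ring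
  have h3P : ¬ ((3 : ℕ) : ℤ) ∣ (P : ℤ) := by
    intro h
    have : 3 ∣ P := by exact_mod_cast h
    omega
  have h5P : ¬ ((5 : ℕ) : ℤ) ∣ (P : ℤ) := by
    intro h
    have : 5 ∣ P := by exact_mod_cast h
    omega
  have h35 : ¬ ((3 : ℕ) : ℤ) ∣ (5 : ℤ) := by norm_num
  have h53' : ¬ ((5 : ℕ) : ℤ) ∣ (3 : ℤ) := by norm_num
  have h3c3' : ¬ ((3 : ℕ) : ℤ) ∣ c3 := by exact_mod_cast h3c3
  have h5c2' : ¬ ((5 : ℕ) : ℤ) ∣ c2 := by exact_mod_cast h5c2
  -- now eliminate 3 and 5
  have key : ¬ (3 : ℤ) ∣ c1 ∧ ¬ (5 : ℤ) ∣ c1 := by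
    rcases hmod with ⟨hm3, hm5⟩ | ⟨hm3, hm5⟩
    · have hchi3 : chi 3 (P : ℤ) = -1 := chi3_two (by omega)
      have hchi5 : chi 5 (P : ℤ) = -1 := chi5_two (by omega)
      constructor
      · intro h
        have := chi_of_dvd (l := 3) D.hA D.hB D.hC hYX3 hZX3 D.hrt D.hw D.sq1 D.sq2 h3P h35 h3c3'
          (by exact_mod_cast h) (by exact_mod_cast h31 h)
        rw [hchi3] at this
        norm_num at this
      · intro h
        have := chi_of_dvd (l := 5) D.hA D.hC D.hB hYX5 hZX5 D.hrt hw132 D.sq1 D.sq3 h5P h53' h5c2'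
          (by exact_mod_cast h) (by exact_mod_cast h51 h)
        rw [hchi5] at this
        norm_num at this
    · have hchi3 : chi 3 (P : ℤ) = 1 := chi3_one (by omega)
      have hchi5 : chi 5 (P : ℤ) = 1 := chi5_one (by omega)
      have hc3chi := chi_third (l := 3) D.hA D.hB D.hC hYX3 hZX3 D.hrt D.hw h3P h35 h3c3' hchi3
      have hc2chi := chi_third (l := 5) D.hA D.hC D.hB hYX5 hZX5 D.hrt hw132 h5P h53' h5c2' hchi5
      constructor
      · -- 3 does not divide c2
        intro h
        have h3c2 := h31 h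
        have hprimes : ∀ q : ℕ, q.Prime → (q : ℤ) ∣ c2 → q = 3 ∨ q = P := by
          intro q hq hqc
          rcases hq2 q hq hqc with h' | h' | h'
          · subst h'; exact absurd (by exact_mod_cast hqc) h2c2
          · exact Or.inl h'
          · exact Or.inr h'
        have hchi3' : chi 5 (3 : ℤ) = -1 := chi5_two (by norm_num)
        have hchim3 : chi 5 (-3 : ℤ) = -1 := chi5_two (by norm_num)
        rcases abs_two_primes D.sq2 hprimes with h' | h' | h' | h'
        · -- natAbs c2 = 1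
          have : (3 : ℤ) ∣ 1 := by
            have := Int.natAbs_dvd_natAbs.mpr h3c2
            rw [h'] at this
            simp at this
          norm_num at this
        · rcases Int.natAbs_eq c2 with h4 | h4 <;> rw [h'] at h4 <;> rw [h4] at hc2chi <;>
            push_cast at hc2chi
          · rw [hchi3'] at hc2chi; norm_num at hc2chi
          · rw [hchim3] at hc2chi; norm_num at hc2chi
        · have hdv : 3 ∣ P := by
            have := Int.natAbs_dvd_natAbs.mpr h3c2
            rw [h'] at this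
            simpa using this
          omega
        · rcases Int.natAbs_eq c2 with h4 | h4 <;> rw [h'] at h4 <;> rw [h4] at hc2chi <;>
            push_cast at hc2chi
          · rw [chi_mul, hchi3', hchi5] at hc2chi; norm_num at hc2chi
          · have e : -(3 * (P : ℤ)) = (-3) * P := by ring
            rw [e, chi_mul, hchim3, hchi5] at hc2chi; norm_num at hc2chi
      · -- 5 does not divide c3
        intro h
        have h5c3 := h51 h
        have hprimes : ∀ q : ℕ, q.Prime → (q : ℤ) ∣ c3 → q = 5 ∨ q = P := by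
          intro q hq hqc
          rcases hq3 q hq hqc with h' | h' | h'
          · subst h'; exact absurd (by exact_mod_cast hqc) h2c3
          · exact Or.inl h'
          · exact Or.inr h'
        have hcast : c3 = (c3.natAbs : ℤ) := by omega
        have hchi5' : chi 3 (5 : ℤ) = -1 := chi3_two (by norm_num)
        rcases abs_two_primes D.sq3 hprimes with h' | h' | h' | h'
        · have : (5 : ℤ) ∣ 1 := by
            have := Int.natAbs_dvd_natAbs.mpr h5c3
            rw [h'] at this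
            simp at this
          norm_num at this
        · rw [hcast, h'] at hc3chi
          push_cast at hc3chi
          rw [hchi5'] at hc3chi; norm_num at hc3chi
        · have hdv : 5 ∣ P := by
            have := Int.natAbs_dvd_natAbs.mpr h5c3
            rw [h'] at this
            simpa using this
          omega
        · rw [hcast, h'] at hc3chi
          push_cast at hc3chi
          rw [chi_mul, hchi5', hchi3] at hc3chi; norm_num at hc3chi
  obtain ⟨h3c1, h5c1⟩ := key
  have h3c2 : ¬ (3 : ℤ) ∣ c2 := fun h => h3c1 (h32 h)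
  have h5c3 : ¬ (5 : ℤ) ∣ c3 := fun h => h5c1 (h53 h)
  -- only P remains
  have hC1 := abs_one_prime D.sq1 hP (by
    intro q hq hqc
    rcases hq1 q hq hqc with h' | h' | h'
    · subst h'; exact absurd (by exact_mod_cast hqc) h3c1
    · subst h'; exact absurd (by exact_mod_cast hqc) h5c1
    · exact h')
  have hC2 := abs_one_prime D.sq2 hP (by
    intro q hq hqc
    rcases hq2 q hq hqc with h' | h' | h'
    · subst h'; exact absurd (by exact_mod_cast hqc) h2c2
    · subst h'; exact absurd (by exact_mod_cast hqc) h3c2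
    · exact h')
  have hC3 := abs_one_prime D.sq3 hP (by
    intro q hq hqc
    rcases hq3 q hq hqc with h' | h' | h'
    · subst h'; exact absurd (by exact_mod_cast hqc) h2c3
    · subst h'; exact absurd (by exact_mod_cast hqc) h5c3
    · exact h')
  have hC3' : c3 = 1 ∨ c3 = P := by
    rcases hC3 with h | h | h | h
    · exact Or.inl h
    · rw [h] at hc3pos; norm_num at hc3pos
    · exact Or.inr h
    · rw [h] at hc3pos; linarith
  -- residue filter for c1
  have hC1' : c1 = 1 ∨ c1 = -P := by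
    rcases hC1 with h | h | h | h
    · exact Or.inl h
    · exfalso
      rw [h] at hres1 hres2
      rcases hP8 with h' | h' | h'
      · have := hres1 (Or.inl h')
        revert this; decide
      · have := hres2 h'
        revert this; decide
      · have := hres1 (Or.inr h')
        revert this; decide
    · exfalso
      rw [h] at hres1 hres2
      rcases hP8 with h' | h' | h'
      · have := hres1 (Or.inl h')
        rw [h'] at this
        revert this; decide
      · have := hres2 h'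
        rw [h'] at this
        revert this; decide
      · have := hres1 (Or.inr h')
        rw [h'] at this
        revert this; decide
    · exact Or.inr h
  -- the square class relation
  have hw := D.hw
  have hsqP := prime_not_sq hP
  have hcuP := prime_not_cube hP
  have hPP : (0 : ℤ) < P := hP0
  rcases hC1' with h1 | h1 <;> rcases hC2 with h2 | h2 | h2 | h2 <;> rcases hC3' with h3 | h3 <;>
    subst h1 h2 h3
  · left; exact ⟨rfl, rfl, rfl⟩
  · exact absurd (by rw [← hw]; ring) (hsqP w)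
  · nlinarith [sq_nonneg w]
  · nlinarith [sq_nonneg w]
  · exact absurd (by rw [← hw]; ring) (hsqP w)
  · right; left; exact ⟨rfl, rfl, rfl⟩
  · nlinarith [sq_nonneg w]
  · nlinarith [sq_nonneg w]
  · nlinarith [sq_nonneg w]
  · nlinarith [sq_nonneg w]
  · exact absurd (by rw [← hw]; ring) (hsqP w)
  · right; right; left; exact ⟨rfl, rfl, rfl⟩
  · nlinarith [sq_nonneg w, mul_pos hPP hPP]
  · nlinarith [sq_nonneg w, mul_pos hPP hPP, mul_pos (mul_pos hPP hPP) hPP]
  · right; right; right; exact ⟨rfl, rfl, rfl⟩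
  · exact absurd (by rw [← hw]; ring) (hcuP w)

end Vale.Agent.Lib.P017
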