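import Vale.Agent.Lib.P017.Main1

/-! The classification for the curve itself over the rationals. -/

namespace Vale.Agent.Lib.P017

attribute [local instance] fact3 fact5

lemma dvdn9 {q : ℕ} (hq : q.Prime) (h : (q : ℤ) ∣ 9 * (-1 : ℤ)) : q = 3 := by
  have h1 : (q : ℤ) ∣ ((3 ^ 2 : ℕ) : ℤ) := by
    have := (dvd_neg (a := (q : ℤ)) (b := 9)).mp (by simpa using h)
    exact_mod_cast this
  have h2 : q ∣ 3 ^ 2 := by exact_mod_cast h1
  exact (Nat.prime_dvd_prime_iff_eq hq (by norm_num)).mp (hq.dvd_of_dvd_pow h2)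

lemma dvdn25 {q : ℕ} (hq : q.Prime) (h : (q : ℤ) ∣ 25 * (-1 : ℤ)) : q = 5 := by
  have h1 : (q : ℤ) ∣ ((5 ^ 2 : ℕ) : ℤ) := by
    have := (dvd_neg (a := (q : ℤ)) (b := 25)).mp (by simpa using h)
    exact_mod_cast this
  have h2 : q ∣ 5 ^ 2 := by exact_mod_cast h1
  exact (Nat.prime_dvd_prime_iff_eq hq (by norm_num)).mp (hq.dvd_of_dvd_pow h2)

lemma dvdn16 {q : ℕ} (hq : q.Prime) (h : (q : ℤ) ∣ 16 * (-1 : ℤ)) : q = 2 := by
  have h1 : (q : ℤ) ∣ ((2 ^ 4 : ℕ) : ℤ) := by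
    have := (dvd_neg (a := (q : ℤ)) (b := 16)).mp (by simpa using h)
    exact_mod_cast this
  have h2 : q ∣ 2 ^ 4 := by exact_mod_cast h1
  exact (Nat.prime_dvd_prime_iff_eq hq (by norm_num)).mp (hq.dvd_of_dvd_pow h2)

/-- The classification of the four classes for the curve `y^2 = x (x - 9) (x - 25)`. -/
theorem classes_neg {r t c1 c2 c3 u1 u2 u3 w : ℤ}
    (D : Data (-1 : ℤ) r t c1 c2 c3 u1 u2 u3 w)
    (hne : r * (r + 9 * (-1) * t ^ 2) * (r + 25 * (-1) * t ^ 2) ≠ 0)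
    (hnn : 0 ≤ r * (r + 9 * (-1) * t ^ 2) * (r + 25 * (-1) * t ^ 2)) :
    (c1 = 1 ∧ c2 = 1 ∧ c3 = 1) ∨ (c1 = 1 ∧ c2 = -1 ∧ c3 = -1) ∨
      (c1 = 5 ∧ c2 = 1 ∧ c3 = 5) ∨ (c1 = 5 ∧ c2 = -1 ∧ c3 = -5) := by
  -- positivity of A
  have hA0 : 0 < r := by
    have ht2 : 0 < t ^ 2 := by have := D.ht; positivity
    by_contra hcon
    push Not at hcon
    have h1 : r < 0 := by
      rcases hcon.lt_or_eq with h | h
      · exact h
      · exact absurd (by rw [h]; ring) hne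
    have h2 : r + 9 * (-1) * t ^ 2 < 0 := by nlinarith
    have h3 : r + 25 * (-1) * t ^ 2 < 0 := by nlinarith
    have := mul_pos_of_neg_of_neg h1 h2
    have h4 := mul_neg_of_pos_of_neg this h3
    linarith
  have hc1pos : 0 < c1 := by
    rw [D.hA] at hA0
    by_contra hcon
    push Not at hcon
    have : c1 * u1 ^ 2 ≤ 0 := mul_nonpos_of_nonpos_of_nonneg hcon (by positivity)
    linarith
  -- prime divisors
  have hq1 : ∀ q : ℕ, q.Prime → (q : ℤ) ∣ c1 → q = 3 ∨ q = 5 := by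
    intro q hq h
    rcases D.share1 (prime_cast hq) h with h' | h'
    · exact Or.inl (dvdn9 hq h')
    · exact Or.inr (dvdn25 hq h')
  have hq2 : ∀ q : ℕ, q.Prime → (q : ℤ) ∣ c2 → q = 2 ∨ q = 3 := by
    intro q hq h
    rcases D.share2 (prime_cast hq) h with h' | h'
    · exact Or.inr (dvdn9 hq h')
    · exact Or.inl (dvdn16 hq h')
  have hq3 : ∀ q : ℕ, q.Prime → (q : ℤ) ∣ c3 → q = 2 ∨ q = 5 := by
    intro q hq h
    rcases D.share3 (prime_cast hq) h with h' | h'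
    · exact Or.inr (dvdn25 hq h')
    · exact Or.inl (dvdn16 hq h')
  have h3c3 : ¬ (3 : ℤ) ∣ c3 := by
    intro h
    rcases hq3 3 (by norm_num) (by exact_mod_cast h) with h' | h' <;> omega
  have h5c2 : ¬ (5 : ℤ) ∣ c2 := by
    intro h
    rcases hq2 5 (by norm_num) (by exact_mod_cast h) with h' | h' <;> omega
  have h2c1 : ¬ (2 : ℤ) ∣ c1 := by
    intro h
    rcases hq1 2 (by norm_num) (by exact_mod_cast h) with h' | h' <;> omega
  have hw213 : c2 * c1 * c3 = w ^ 2 := by rw [← D.hw]; ring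
  have hw312 : c3 * c1 * c2 = w ^ 2 := by rw [← D.hw]; ring
  have hw132 : c1 * c3 * c2 = w ^ 2 := by rw [← D.hw]; ring
  have h31 : (3 : ℤ) ∣ c1 → (3 : ℤ) ∣ c2 := fun h =>
    (share pr3 D.hw D.sq1 h).resolve_right h3c3
  have h32 : (3 : ℤ) ∣ c2 → (3 : ℤ) ∣ c1 := fun h =>
    (share pr3 hw213 D.sq2 h).resolve_right h3c3
  have h23 : (2 : ℤ) ∣ c3 → (2 : ℤ) ∣ c2 := fun h =>
    (share pr2 hw312 D.sq3 h).resolve_left h2c1
  have hYX3 : (r + 9 * (-1) * t ^ 2) - r = ((3 : ℕ) : ℤ) ^ 2 * ((-1 : ℤ) * t ^ 2) := by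
    push_cast; ring
  have hZX3 : (r + 25 * (-1) * t ^ 2) - r = (5 : ℤ) ^ 2 * ((-1 : ℤ) * t ^ 2) := by ring
  have hYX5 : (r + 25 * (-1) * t ^ 2) - r = ((5 : ℕ) : ℤ) ^ 2 * ((-1 : ℤ) * t ^ 2) := by
    push_cast; ring
  have hZX5 : (r + 9 * (-1) * t ^ 2) - r = (3 : ℤ) ^ 2 * ((-1 : ℤ) * t ^ 2) := by ring
  have h3P : ¬ ((3 : ℕ) : ℤ) ∣ (-1 : ℤ) := by norm_num
  have h5P : ¬ ((5 : ℕ) : ℤ) ∣ (-1 : ℤ) := by norm_num
  have h35 : ¬ ((3 : ℕ) : ℤ) ∣ (5 : ℤ) := by norm_num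
  have h53' : ¬ ((5 : ℕ) : ℤ) ∣ (3 : ℤ) := by norm_num
  have h3c3' : ¬ ((3 : ℕ) : ℤ) ∣ c3 := by exact_mod_cast h3c3
  have h5c2' : ¬ ((5 : ℕ) : ℤ) ∣ c2 := by exact_mod_cast h5c2
  have hchi3 : chi 3 (-1 : ℤ) = -1 := chi3_two (by norm_num)
  have hchi5 : chi 5 (-1 : ℤ) = 1 := chi5_one (by norm_num)
  have h3c1 : ¬ (3 : ℤ) ∣ c1 := by
    intro h
    have := chi_of_dvd (l := 3) D.hA D.hB D.hC hYX3 hZX3 D.hrt D.hw D.sq1 D.sq2 h3P h35 h3c3'
      (by exact_mod_cast h) (by exact_mod_cast h31 h)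
    rw [hchi3] at this
    norm_num at this
  have h3c2 : ¬ (3 : ℤ) ∣ c2 := fun h => h3c1 (h32 h)
  have hc2chi := chi_third (l := 5) D.hA D.hC D.hB hYX5 hZX5 D.hrt hw132 h5P h53' h5c2' hchi5
  have h2c2 : ¬ (2 : ℤ) ∣ c2 := by
    intro h
    have hprimes : ∀ q : ℕ, q.Prime → (q : ℤ) ∣ c2 → q = 2 ∨ q = 2 := by
      intro q hq hqc
      rcases hq2 q hq hqc with h' | h'
      · exact Or.inl h'
      · subst h'; exact absurd (by exact_mod_cast hqc) h3c2
    have hchi2 : chi 5 (2 : ℤ) = -1 := chi5_two (by norm_num)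
    have hchim2 : chi 5 (-2 : ℤ) = -1 := chi5_two (by norm_num)
    rcases abs_two_primes D.sq2 hprimes with h' | h' | h' | h'
    · have : (2 : ℤ) ∣ 1 := by
        have := Int.natAbs_dvd_natAbs.mpr h
        rw [h'] at this
        simp at this
      norm_num at this
    · rcases Int.natAbs_eq c2 with h4 | h4 <;> rw [h'] at h4 <;> rw [h4] at hc2chi <;>
        push_cast at hc2chi
      · rw [hchi2] at hc2chi; norm_num at hc2chi
      · rw [hchim2] at hc2chi; norm_num at hc2chi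
    · rcases Int.natAbs_eq c2 with h4 | h4 <;> rw [h'] at h4 <;> rw [h4] at hc2chi <;>
        push_cast at hc2chi
      · rw [hchi2] at hc2chi; norm_num at hc2chi
      · rw [hchim2] at hc2chi; norm_num at hc2chi
    · have h4 := Int.squarefree_natAbs.mpr D.sq2
      rw [h'] at h4
      have := h4 2 dvd_rfl
      simp at this
  have h2c3 : ¬ (2 : ℤ) ∣ c3 := fun h => h2c2 (h23 h)
  have hC1 : c1 = 1 ∨ c1 = 5 := by
    have h := abs_one_prime D.sq1 (P := 5) (by norm_num) (by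
      intro q hq hqc
      rcases hq1 q hq hqc with h' | h'
      · subst h'; exact absurd (by exact_mod_cast hqc) h3c1
      · exact h')
    rcases h with h | h | h | h
    · exact Or.inl h
    · rw [h] at hc1pos; norm_num at hc1pos
    · exact Or.inr (by exact_mod_cast h)
    · rw [h] at hc1pos; norm_num at hc1pos
  have hC2 : c2 = 1 ∨ c2 = -1 := by
    have h1 := abs_two_primes (u := 1) (v := 1) D.sq2 (by
      intro q hq hqc
      exfalso
      rcases hq2 q hq hqc with h' | h'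
      · subst h'; exact h2c2 (by exact_mod_cast hqc)
      · subst h'; exact h3c2 (by exact_mod_cast hqc))
    have h2 : c2.natAbs = 1 := by
      rcases h1 with h | h | h | h <;> simpa using h
    rcases Int.natAbs_eq c2 with h4 | h4
    · left; rw [h4, h2]; rfl
    · right; rw [h4, h2]; rfl
  have hC3 := abs_one_prime D.sq3 (P := 5) (by norm_num) (by
    intro q hq hqc
    rcases hq3 q hq hqc with h' | h'
    · subst h'; exact absurd (by exact_mod_cast hqc) h2c3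
    · exact h')
  have hw := D.hw
  have hsq5 := prime_not_sq (P := 5) (by norm_num) w
  have hsq25 : w ^ 2 ≠ 5 := by exact_mod_cast hsq5
  rcases hC1 with h1 | h1 <;> rcases hC2 with h2 | h2 <;> rcases hC3 with h3 | h3 | h3 | h3 <;>
    subst h1 h2 h3 <;> push_cast at hw
  · left; exact ⟨rfl, rfl, rfl⟩
  · nlinarith [sq_nonneg w]
  · exact absurd (by linarith) hsq25
  · nlinarith [sq_nonneg w]
  · nlinarith [sq_nonneg w]
  · right; left; exact ⟨rfl, rfl, rfl⟩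
  · nlinarith [sq_nonneg w]
  · exact absurd (by linarith) hsq25
  · exact absurd (by linarith) hsq25
  · nlinarith [sq_nonneg w]
  · right; right; left; exact ⟨rfl, rfl, by norm_num⟩
  · nlinarith [sq_nonneg w]
  · nlinarith [sq_nonneg w]
  · exact absurd (by linarith) hsq25
  · nlinarith [sq_nonneg w]
  · right; right; right; exact ⟨rfl, rfl, by norm_num⟩

end Vale.Agent.Lib.P017
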