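import Vale.Agent.Lib.P017.Main2
import Vale.Agent.Lib.P017.Descent

/-! From the classification of square classes to finiteness of rational points. -/

namespace Vale.Agent.Lib.P017

open WeierstrassCurve WeierstrassCurve.Affine

section general

variable {F : Type*} [Field F] [DecidableEq F] {W : Affine F} {e f g : F}

/-- Translation by a two-torsion point reduces to all-squares. -/
lemma IsCubic.exists_half_add_root (h : IsCubic W e f g) (h2 : (2 : F) ≠ 0) (hef : e ≠ f)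
    (heg : e ≠ g) (hfg : f ≠ g) {x y : F} (hP : W.Nonsingular x y) (hT : W.Nonsingular e 0)
    (hx : x ≠ e) (s1 : IsSquare ((e - f) * (e - g) / (x - e)))
    (s2 : IsSquare ((e - f) * (x - g) / (x - e))) (s3 : IsSquare ((e - g) * (x - f) / (x - e))) :
    ∃ Q : W.Point, Point.some x y hP = Point.some e 0 hT + (Q + Q) := by
  obtain ⟨x', y', hP', hadd, h1, h2', h3⟩ := h.add_root hP hT hx
  obtain ⟨Q, hQ⟩ := h.exists_half h2 hef heg hfg hP' (h1 ▸ s1) (h2' ▸ s2) (h3 ▸ s3)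
  refine ⟨Q, ?_⟩
  have hneg : (0 : F) = W.negY e 0 := by rw [h.negY_eq]; ring
  have hTT : Point.some e 0 hT + Point.some e 0 hT = 0 := Point.add_self_of_Y_eq hneg
  rw [← hQ, ← hadd]
  have : Point.some x y hP + Point.some e 0 hT + Point.some e 0 hT
      = Point.some x y hP + (Point.some e 0 hT + Point.some e 0 hT) := by abel
  rw [add_comm (Point.some e 0 hT), this, hTT, add_zero]

omit [DecidableEq F] in
/-- A square divided by a non-zero square is a square. -/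
lemma isSquare_of_mul {a b : F} (hab : IsSquare (a * b)) (hb : IsSquare b) (hb0 : b ≠ 0) :
    IsSquare a := by
  have : a = (a * b) / b := by field_simp
  rw [this]
  exact hab.div hb

/-- A point with `2 (2 P) = 0` from an explicit `x` coordinate. -/
lemma IsCubic.four_torsion_of_x {a b : F} (h : IsCubic W 0 a b) (h2 : (2 : F) ≠ 0) {x y : F}
    (hP : W.Nonsingular x y) (hy : y ≠ 0)
    (hx : (x ^ 2 - a * b) ^ 2 / (4 * (x * (x - a) * (x - b))) = b) :
    (Point.some x y hP + Point.some x y hP) + (Point.some x y hP + Point.some x y hP) = 0 := by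
  obtain ⟨x', y', hP', hadd, hx'⟩ := h.double_x h2 hP hy
  rw [hadd]
  rw [hx] at hx'
  subst hx'
  have hE := (h.equation_iff x' y').mp hP'.1
  have hy0 : y' = 0 := by
    have : y' ^ 2 = 0 := by rw [hE]; ring
    exact pow_eq_zero_iff two_ne_zero |>.mp this
  subst hy0
  apply Point.add_self_of_Y_eq
  rw [h.negY_eq]; ring

end general

section twist

variable {W : Affine ℚ} {P : ℕ}

/-- The descent statement for the twist by `-P`. -/
theorem descent_pos (hP : P.Prime)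
    (hmod : (P % 3 = 2 ∧ (P % 5 = 2 ∨ P % 5 = 3)) ∨ (P % 3 = 1 ∧ (P % 5 = 1 ∨ P % 5 = 4)))
    (h8 : P % 8 = 3 ∨ P % 8 = 5 ∨ P % 8 = 7)
    (h : IsCubic W 0 (((-9 * (P : ℤ) : ℤ)) : ℚ) (((-25 * (P : ℤ) : ℤ)) : ℚ))
    (R : W.Point) : ∃ f Q : W.Point, (f + f) + (f + f) = 0 ∧ R = f + (Q + Q) := by
  have h2 : (2 : ℚ) ≠ 0 := by norm_num
  have hP0 : (P : ℚ) ≠ 0 := by exact_mod_cast hP.ne_zero
  set e2 : ℚ := ((-9 * (P : ℤ) : ℤ) : ℚ) with he2
  set e3 : ℚ := ((-25 * (P : ℤ) : ℤ) : ℚ) with he3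
  have he2' : e2 = -9 * P := by rw [he2]; push_cast; ring
  have he3' : e3 = -25 * P := by rw [he3]; push_cast; ring
  have h12 : (0 : ℚ) ≠ e2 := by
    rw [he2']; intro h0; apply hP0; linarith
  have h13 : (0 : ℚ) ≠ e3 := by
    rw [he3']; intro h0; apply hP0; linarith
  have h23 : e2 ≠ e3 := by
    rw [he2', he3']; intro h0; apply hP0; linarith
  rcases R with _ | ⟨x, y, hxy⟩
  · exact ⟨0, 0, by simp, by simp [Point.zero_def]⟩
  by_cases hy : y = 0
  · refine ⟨Point.some x y hxy, 0, ?_, by simp⟩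
    have hneg : y = W.negY x y := by rw [h.negY_eq, hy]; simp
    rw [Point.add_self_of_Y_eq hneg]; simp
  have hE := (h.equation_iff x y).mp hxy.1
  have hE' : y ^ 2 = x * (x + 9 * ((P : ℤ) : ℚ)) * (x + 25 * ((P : ℤ) : ℚ)) := by
    rw [hE, he2', he3']; push_cast; ring
  obtain ⟨r, t, c1, c2, c3, u1, u2, u3, w, D, hx1, hx2, hx3, ht0, hrx, hne, hnn⟩ :=
    exists_data (P : ℤ) hy hE'
  have hcl := classes_pos hP hmod h8 D hne hnn
  have hx2' : x - e2 = c2 * ((u2 : ℚ) / t) ^ 2 := by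
    rw [he2', ← hx2]; push_cast; ring
  have hx3' : x - e3 = c3 * ((u3 : ℚ) / t) ^ 2 := by
    rw [he3', ← hx3]; push_cast; ring
  have hx1' : x - 0 = c1 * ((u1 : ℚ) / t) ^ 2 := by rw [sub_zero, hx1]
  have hu1 : (u1 : ℚ) ≠ 0 := by exact_mod_cast D.hu1
  have hu2 : (u2 : ℚ) ≠ 0 := by exact_mod_cast D.hu2
  have hu3 : (u3 : ℚ) ≠ 0 := by exact_mod_cast D.hu3
  have ht' : (t : ℚ) ≠ 0 := by exact_mod_cast D.ht
  rcases hcl with ⟨rfl, rfl, rfl⟩ | ⟨rfl, rfl, rfl⟩ | ⟨rfl, rfl, rfl⟩ | ⟨rfl, rfl, rfl⟩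
  · -- all squares
    obtain ⟨Q, hQ⟩ := h.exists_half h2 h12 h13 h23 hxy
      ⟨(u1 : ℚ) / t, by rw [hx1']; push_cast; ring⟩
      ⟨(u2 : ℚ) / t, by rw [hx2']; push_cast; ring⟩
      ⟨(u3 : ℚ) / t, by rw [hx3']; push_cast; ring⟩
    exact ⟨0, Q, by simp, by rw [hQ, zero_add]⟩
  · -- translate by (0, 0)
    have hT : W.Nonsingular 0 0 := h.nonsingular h2 h12 h13 h23 (by ring)
    have hx0 : x ≠ 0 := by
      rw [sub_zero] at hx1'; rw [hx1']; push_cast; positivity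
    obtain ⟨Q, hQ⟩ := h.exists_half_add_root h2 h12 h13 h23 hxy hT hx0
      ⟨15 * P * t / u1, by rw [hx1', he2', he3']; push_cast; field_simp; ring⟩
      ⟨3 * P * u3 / u1, by rw [hx1', hx3', he2']; push_cast; field_simp; ring⟩
      ⟨5 * P * u2 / u1, by rw [hx1', hx2', he3']; push_cast; field_simp; ring⟩
    refine ⟨Point.some 0 0 hT, Q, ?_, hQ⟩
    have hneg : (0 : ℚ) = W.negY 0 0 := by rw [h.negY_eq]; simp
    rw [Point.add_self_of_Y_eq hneg]; simp
  · -- translate by (e2, 0)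
    have h' := h.perm12
    have hT : W.Nonsingular e2 0 := h.nonsingular h2 h12 h13 h23 (by ring)
    have hx0 : x ≠ e2 := by
      intro h0
      rw [h0, sub_self] at hx2'
      push_cast at hx2'
      have : (0 : ℚ) < ((u2 : ℚ) / t) ^ 2 := by positivity
      linarith
    have hd : x - e2 ≠ 0 := sub_ne_zero.mpr hx0
    obtain ⟨Q, hQ⟩ := h'.exists_half_add_root h2 h12.symm h23 h13 hxy hT hx0
      ⟨12 * P * t / u2, by rw [hx2', he2', he3']; push_cast; field_simp; ring⟩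
      ⟨3 * P * u3 / u2, by rw [hx2', hx3', he2']; push_cast; field_simp; ring⟩
      ⟨4 * P * u1 / u2, by rw [hx2', hx1', he2', he3']; push_cast; field_simp; ring⟩
    refine ⟨Point.some e2 0 hT, Q, ?_, hQ⟩
    have hneg : (0 : ℚ) = W.negY e2 0 := by rw [h.negY_eq]; simp
    rw [Point.add_self_of_Y_eq hneg]; simp
  · -- translate by (e3, 0)
    have h' := h.perm13
    have hT : W.Nonsingular e3 0 := h.nonsingular h2 h12 h13 h23 (by ring)
    have hx0 : x ≠ e3 := by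
      intro h0
      rw [h0, sub_self] at hx3'
      push_cast at hx3'
      have : (0 : ℚ) < ((u3 : ℚ) / t) ^ 2 := by positivity
      linarith
    have hd : x - e3 ≠ 0 := sub_ne_zero.mpr hx0
    obtain ⟨Q, hQ⟩ := h'.exists_half_add_root h2 h23.symm h13.symm h12.symm hxy hT hx0
      ⟨20 * P * t / u3, by rw [hx3', he2', he3']; push_cast; field_simp; ring⟩
      ⟨4 * P * u1 / u3, by rw [hx3', hx1', he2', he3']; push_cast; field_simp; ring⟩
      ⟨5 * P * u2 / u3, by rw [hx3', hx2', he3']; push_cast; field_simp; ring⟩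
    refine ⟨Point.some e3 0 hT, Q, ?_, hQ⟩
    have hneg : (0 : ℚ) = W.negY e3 0 := by rw [h.negY_eq]; simp
    rw [Point.add_self_of_Y_eq hneg]; simp

/-- The twist by `-P` has finitely many rational points. -/
theorem finite_pos (hP : P.Prime)
    (hmod : (P % 3 = 2 ∧ (P % 5 = 2 ∨ P % 5 = 3)) ∨ (P % 3 = 1 ∧ (P % 5 = 1 ∨ P % 5 = 4)))
    (h8 : P % 8 = 3 ∨ P % 8 = 5 ∨ P % 8 = 7)
    (h : IsCubic W 0 (((-9 * (P : ℤ) : ℤ)) : ℚ) (((-25 * (P : ℤ) : ℤ)) : ℚ)) :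
    Finite W.Point := by
  have hP0 : (P : ℤ) ≠ 0 := by exact_mod_cast hP.ne_zero
  refine finite_of_descent h (by positivity) (by positivity) ?_ (descent_pos hP hmod h8 h)
  intro h0
  apply hP0
  linarith

end twist

section base

variable {W : Affine ℚ}

/-- The descent statement for `y^2 = x (x - 9) (x - 25)`. -/
theorem descent_base (h : IsCubic W 0 ((9 : ℤ) : ℚ) ((25 : ℤ) : ℚ))
    (R : W.Point) : ∃ f Q : W.Point, (f + f) + (f + f) = 0 ∧ R = f + (Q + Q) := by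
  have h2 : (2 : ℚ) ≠ 0 := by norm_num
  have h12 : (0 : ℚ) ≠ ((9 : ℤ) : ℚ) := by norm_num
  have h13 : (0 : ℚ) ≠ ((25 : ℤ) : ℚ) := by norm_num
  have h23 : ((9 : ℤ) : ℚ) ≠ ((25 : ℤ) : ℚ) := by norm_num
  rcases R with _ | ⟨x, y, hxy⟩
  · exact ⟨0, 0, by simp, by simp [Point.zero_def]⟩
  by_cases hy : y = 0
  · refine ⟨Point.some x y hxy, 0, ?_, by simp⟩
    have hneg : y = W.negY x y := by rw [h.negY_eq, hy]; simp
    rw [Point.add_self_of_Y_eq hneg]; simp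
  have hE := (h.equation_iff x y).mp hxy.1
  have hE' : y ^ 2 = x * (x + 9 * ((-1 : ℤ) : ℚ)) * (x + 25 * ((-1 : ℤ) : ℚ)) := by
    rw [hE]; push_cast; ring
  obtain ⟨r, t, c1, c2, c3, u1, u2, u3, w, D, hx1, hx2, hx3, ht0, hrx, hne, hnn⟩ :=
    exists_data (-1 : ℤ) hy hE'
  have hcl := classes_neg D hne hnn
  have hx2' : x - 9 = c2 * ((u2 : ℚ) / t) ^ 2 := by
    rw [← hx2]; push_cast; ring
  have hx3' : x - 25 = c3 * ((u3 : ℚ) / t) ^ 2 := by
    rw [← hx3]; push_cast; ring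
  have hu1 : (u1 : ℚ) ≠ 0 := by exact_mod_cast D.hu1
  have hu2 : (u2 : ℚ) ≠ 0 := by exact_mod_cast D.hu2
  have hu3 : (u3 : ℚ) ≠ 0 := by exact_mod_cast D.hu3
  have ht' : (t : ℚ) ≠ 0 := by exact_mod_cast D.ht
  have hcase4 : ∀ (x1 y1 : ℚ) (hP1 : W.Nonsingular x1 y1),
      (x1 ^ 2 - ((9 : ℤ) : ℚ) * ((25 : ℤ) : ℚ)) ^ 2 /
        (4 * (x1 * (x1 - ((9 : ℤ) : ℚ)) * (x1 - ((25 : ℤ) : ℚ)))) = ((25 : ℤ) : ℚ) →
      y1 ≠ 0 →
      (Point.some x1 y1 hP1 + Point.some x1 y1 hP1) +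
        (Point.some x1 y1 hP1 + Point.some x1 y1 hP1) = 0 := by
    intro x1 y1 hP1 hx hy1
    exact h.four_torsion_of_x h2 hP1 hy1 hx
  -- a point obtained from an order-four translation
  have hgen : ∀ (x1 y1 : ℚ) (hP1 : W.Nonsingular x1 y1),
      (x1 ^ 2 - ((9 : ℤ) : ℚ) * ((25 : ℤ) : ℚ)) ^ 2 /
        (4 * (x1 * (x1 - ((9 : ℤ) : ℚ)) * (x1 - ((25 : ℤ) : ℚ)))) = ((25 : ℤ) : ℚ) →
      y1 ≠ 0 → x ≠ x1 →
      IsSquare ((x - 0) * (x1 - 0)) → (x - 0) * (x1 - 0) ≠ 0 →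
      IsSquare ((x - ((9 : ℤ) : ℚ)) * (x1 - ((9 : ℤ) : ℚ))) →
      (x - ((9 : ℤ) : ℚ)) * (x1 - ((9 : ℤ) : ℚ)) ≠ 0 →
      IsSquare ((x - ((25 : ℤ) : ℚ)) * (x1 - ((25 : ℤ) : ℚ))) →
      (x - ((25 : ℤ) : ℚ)) * (x1 - ((25 : ℤ) : ℚ)) ≠ 0 →
      ∃ f Q : W.Point, (f + f) + (f + f) = 0 ∧ Point.some x y hxy = f + (Q + Q) := by
    intro x1 y1 hP1 hx4 hy1 hxne s1 n1 s2 n2 s3 n3
    obtain ⟨x3, y3, hP3, hadd, t1, t2, t3⟩ := h.add_generic hxy hP1 hxne
    have m1 : IsSquare (x3 - 0) := by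
      refine isSquare_of_mul (b := (x - 0) * (x1 - 0)) ?_ s1 n1
      have : (x3 - 0) * ((x - 0) * (x1 - 0)) = (x3 - 0) * (x - 0) * (x1 - 0) := by ring
      rw [this]; exact t1
    have m2 : IsSquare (x3 - ((9 : ℤ) : ℚ)) := by
      refine isSquare_of_mul (b := (x - ((9 : ℤ) : ℚ)) * (x1 - ((9 : ℤ) : ℚ))) ?_ s2 n2
      have : (x3 - ((9 : ℤ) : ℚ)) * ((x - ((9 : ℤ) : ℚ)) * (x1 - ((9 : ℤ) : ℚ)))
          = (x3 - ((9 : ℤ) : ℚ)) * (x - ((9 : ℤ) : ℚ)) * (x1 - ((9 : ℤ) : ℚ)) := by ring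
      rw [this]; exact t2
    have m3 : IsSquare (x3 - ((25 : ℤ) : ℚ)) := by
      refine isSquare_of_mul (b := (x - ((25 : ℤ) : ℚ)) * (x1 - ((25 : ℤ) : ℚ))) ?_ s3 n3
      have : (x3 - ((25 : ℤ) : ℚ)) * ((x - ((25 : ℤ) : ℚ)) * (x1 - ((25 : ℤ) : ℚ)))
          = (x3 - ((25 : ℤ) : ℚ)) * (x - ((25 : ℤ) : ℚ)) * (x1 - ((25 : ℤ) : ℚ)) := by ring
      rw [this]; exact t3
    obtain ⟨Q, hQ⟩ := h.exists_half h2 h12 h13 h23 hP3 m1 m2 m3
    refine ⟨-Point.some x1 y1 hP1, Q, ?_, ?_⟩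
    · have h4 := hcase4 x1 y1 hP1 hx4 hy1
      have : -Point.some x1 y1 hP1 + -Point.some x1 y1 hP1 +
          (-Point.some x1 y1 hP1 + -Point.some x1 y1 hP1) =
          -((Point.some x1 y1 hP1 + Point.some x1 y1 hP1) +
            (Point.some x1 y1 hP1 + Point.some x1 y1 hP1)) := by abel
      rw [this, h4, neg_zero]
    · rw [← hQ, ← hadd]; abel
  rcases hcl with ⟨rfl, rfl, rfl⟩ | ⟨rfl, rfl, rfl⟩ | ⟨rfl, rfl, rfl⟩ | ⟨rfl, rfl, rfl⟩
  · -- all squares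
    obtain ⟨Q, hQ⟩ := h.exists_half h2 h12 h13 h23 hxy
      ⟨(u1 : ℚ) / t, by rw [sub_zero, hx1]; push_cast; ring⟩
      ⟨(u2 : ℚ) / t, by push_cast; rw [hx2']; push_cast; ring⟩
      ⟨(u3 : ℚ) / t, by push_cast; rw [hx3']; push_cast; ring⟩
    exact ⟨0, Q, by simp, by rw [hQ, zero_add]⟩
  · -- translate by (0, 0)
    have hT : W.Nonsingular 0 0 := h.nonsingular h2 h12 h13 h23 (by ring)
    have hx0 : x ≠ 0 := by
      rw [hx1]; push_cast; positivity
    obtain ⟨Q, hQ⟩ := h.exists_half_add_root h2 h12 h13 h23 hxy hT hx0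
      ⟨15 * t / u1, by rw [sub_zero, hx1]; push_cast; field_simp; ring⟩
      ⟨3 * u3 / u1, by push_cast; rw [sub_zero, hx3', hx1]; push_cast; field_simp; ring⟩
      ⟨5 * u2 / u1, by push_cast; rw [sub_zero, hx2', hx1]; push_cast; field_simp; ring⟩
    refine ⟨Point.some 0 0 hT, Q, ?_, hQ⟩
    have hneg : (0 : ℚ) = W.negY 0 0 := by rw [h.negY_eq]; simp
    rw [Point.add_self_of_Y_eq hneg]; simp
  · -- the point of order four with x = 45
    have hP1 : W.Nonsingular 45 180 := h.nonsingular h2 h12 h13 h23 (by norm_num)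
    by_cases hx45 : x = 45
    · refine ⟨Point.some x y hxy, 0, ?_, by simp⟩
      apply hcase4 x y hxy _ hy
      rw [hx45]; norm_num
    · refine hgen 45 180 hP1 (by norm_num) (by norm_num) hx45
        ⟨15 * u1 / t, by rw [sub_zero, hx1]; push_cast; field_simp; ring⟩ ?_
        ⟨6 * u2 / t, by push_cast; rw [hx2']; push_cast; field_simp; ring⟩ ?_
        ⟨10 * u3 / t, by push_cast; rw [hx3']; push_cast; field_simp; ring⟩ ?_
      · rw [sub_zero, hx1]; push_cast; positivity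
      · push_cast; rw [hx2']; push_cast
        have : (45 : ℚ) - 9 ≠ 0 := by norm_num
        have h1 : ((u2 : ℚ) / t) ^ 2 ≠ 0 := by positivity
        simp only [one_mul]
        exact mul_ne_zero h1 this
      · push_cast; rw [hx3']; push_cast
        have : (45 : ℚ) - 25 ≠ 0 := by norm_num
        have h1 : (5 * ((u3 : ℚ) / t) ^ 2) ≠ 0 := by positivity
        exact mul_ne_zero h1 this
  · -- the point of order four with x = 5
    have hP1 : W.Nonsingular 5 20 := h.nonsingular h2 h12 h13 h23 (by norm_num)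
    by_cases hx5 : x = 5
    · refine ⟨Point.some x y hxy, 0, ?_, by simp⟩
      apply hcase4 x y hxy _ hy
      rw [hx5]; norm_num
    · refine hgen 5 20 hP1 (by norm_num) (by norm_num) hx5
        ⟨5 * u1 / t, by rw [sub_zero, hx1]; push_cast; field_simp; ring⟩ ?_
        ⟨2 * u2 / t, by push_cast; rw [hx2']; push_cast; field_simp; ring⟩ ?_
        ⟨10 * u3 / t, by push_cast; rw [hx3']; push_cast; field_simp; ring⟩ ?_
      · rw [sub_zero, hx1]; push_cast; positivity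
      · push_cast; rw [hx2']; push_cast
        have : (5 : ℚ) - 9 ≠ 0 := by norm_num
        have h1 : (-1 : ℚ) * ((u2 : ℚ) / t) ^ 2 ≠ 0 := by positivity
        exact mul_ne_zero h1 this
      · push_cast; rw [hx3']; push_cast
        have : (5 : ℚ) - 25 ≠ 0 := by norm_num
        have h1 : (-5 : ℚ) * ((u3 : ℚ) / t) ^ 2 ≠ 0 := by positivity
        exact mul_ne_zero h1 this

/-- `y^2 = x (x - 9) (x - 25)` has finitely many rational points. -/
theorem finite_base (h : IsCubic W 0 ((9 : ℤ) : ℚ) ((25 : ℤ) : ℚ)) : Finite W.Point :=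
  finite_of_descent h (by norm_num) (by norm_num) (by norm_num) (descent_base h)

end base

end Vale.Agent.Lib.P017
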